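import Vale.Agent.P092AG.Defs
import Mathlib.Analysis.Calculus.InverseFunctionTheorem.FDeriv
import Mathlib.Analysis.Calculus.Deriv.Mul
import Mathlib.Analysis.Calculus.Deriv.Comp
import Mathlib.Analysis.Calculus.Deriv.Slope
import Mathlib.Analysis.Calculus.FDeriv.Analytic
import Mathlib.Analysis.Normed.Module.FiniteDimension

/-!
P092, group side: tangent vectors of subgroups of the general linear group over a complete field.
-/

set_option linter.all false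

open Matrix Filter Topology

namespace Vale.Agent.P092CQ

open Vale.Agent.P092AG

variable {n : ℕ} {k : Type} [NontriviallyNormedField k] {E : Type} [NormedAddCommGroup E]
  [NormedSpace k E]

section op

open scoped Matrix.Norms.Operator

theorem hs_mul {a b : E → Mt n k} {A B : E →L[k] Mt n k} {x : E} (ha : HasStrictFDerivAt a A x)
    (hb : HasStrictFDerivAt b B x) (a1 : a x = 1) (b1 : b x = 1) :
    HasStrictFDerivAt (fun y => a y * b y) (A + B) x := by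
  refine (ha.mul' hb).congr_fderiv ?_
  ext1 v
  show a x * B v + A v * b x = A v + B v
  rw [a1, b1, one_mul, mul_one, add_comm]

theorem hs_inv [CompleteSpace k] {a : E → Mt n k} {A : E →L[k] Mt n k} {x : E}
    (ha : HasStrictFDerivAt a A x) (a1 : a x = 1) :
    HasStrictFDerivAt (fun y => (a y)⁻¹) (-A) x := by
  haveI := FiniteDimensional.complete k (Mt n k)
  have h := hasStrictFDerivAt_ringInverse (𝕜 := k) (1 : (Mt n k)ˣ)
  rw [Units.val_one, ← a1] at h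
  simp only [Matrix.nonsing_inv_eq_ringInverse]
  refine (h.comp x ha).congr_fderiv ?_
  ext1 v
  show -(1 * A v * 1) = -A v
  rw [one_mul, mul_one]

end op

open scoped Matrix.Norms.Elementwise

variable {G H N : Subgroup (GL (Fin n) k)} {𝔤 : Submodule k (Mt n k)}

theorem mem_one (H : Subgroup (GL (Fin n) k)) : Mem H 1 := ⟨1, H.one_mem, rfl⟩

theorem mem_mul {x y : Mt n k} (hx : Mem H x) (hy : Mem H y) : Mem H (x * y) := by
  obtain ⟨a, ha, rfl⟩ := hx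
  obtain ⟨b, hb, rfl⟩ := hy
  exact ⟨a * b, H.mul_mem ha hb, rfl⟩

theorem mem_mono (h : H ≤ G) {x : Mt n k} (hx : Mem H x) : Mem G x := hx.imp fun _ a => ⟨h a.1, a.2⟩

theorem mem_coe {g : GL (Fin n) k} : Mem H (g : Mt n k) ↔ g ∈ H :=
  ⟨fun ⟨a, ha, e⟩ => Units.ext e ▸ ha, fun h => ⟨g, h, rfl⟩⟩

/-- conjugation -/
noncomputable def Ad : GL (Fin n) k →* Module.End k (Mt n k) where
  toFun g := LinearMap.mulLeftRight k ((g : Mt n k), ((g⁻¹ : GL (Fin n) k) : Mt n k))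
  map_one' := by ext1 x; simp
  map_mul' a b := by ext1 x; simp [mul_assoc]

theorem Ad_apply (g : GL (Fin n) k) (x : Mt n k) :
    Ad g x = (g : Mt n k) * x * ((g⁻¹ : GL (Fin n) k) : Mt n k) := rfl

theorem Ad_coe (g h : GL (Fin n) k) : Ad g (h : Mt n k) = ((g * h * g⁻¹ : GL (Fin n) k) : Mt n k) :=
  rfl

theorem Ad_one (g : GL (Fin n) k) : Ad g (1 : Mt n k) = 1 := by
  rw [Ad_apply, mul_one, Units.mul_inv]

theorem mem_Ad {g : GL (Fin n) k} (h : ∀ x ∈ H, g * x * g⁻¹ ∈ N) {x : Mt n k} (hx : Mem H x) :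
    Mem N (Ad g x) := by
  obtain ⟨a, ha, rfl⟩ := hx
  exact ⟨_, h a ha, rfl⟩

/-- `L` is the derivative of a family of elements of `H` -/
def Tg (H : Subgroup (GL (Fin n) k)) (L : E →L[k] Mt n k) : Prop :=
  ∃ γ : E → Mt n k, HasStrictFDerivAt γ L 0 ∧ γ 0 = 1 ∧ ∀ᶠ t in 𝓝 0, Mem H (γ t)

theorem Tg.zero : Tg H (0 : E →L[k] Mt n k) :=
  ⟨fun _ => 1, hasStrictFDerivAt_const _ _, rfl, .of_forall fun _ => mem_one H⟩

theorem Tg.add {A B : E →L[k] Mt n k} (ha : Tg H A) (hb : Tg H B) : Tg H (A + B) := by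
  obtain ⟨a, a1, a2, a3⟩ := ha
  obtain ⟨b, b1, b2, b3⟩ := hb
  exact ⟨_, hs_mul a1 b1 a2 b2, by rw [a2, b2, mul_one], (a3.and b3).mono fun _ h => mem_mul h.1 h.2⟩

theorem Tg.comp {F : Type} [NormedAddCommGroup F] [NormedSpace k F] {A : E →L[k] Mt n k}
    (ha : Tg H A) (φ : F →L[k] E) : Tg H (A.comp φ) := by
  obtain ⟨a, a1, a2, a3⟩ := ha
  rw [← φ.map_zero] at a1 a3
  exact ⟨a ∘ φ, a1.comp 0 φ.hasStrictFDerivAt, by simp [a2], φ.continuous.continuousAt.eventually a3⟩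

theorem Tg.mono (h : H ≤ G) {A : E →L[k] Mt n k} (ha : Tg H A) : Tg G A :=
  ha.imp fun _ a => ⟨a.1, a.2.1, a.2.2.mono fun _ => mem_mono h⟩

/-- the tangent vectors at `1` of curves in `H` -/
def Tn (H : Subgroup (GL (Fin n) k)) : Submodule k (Mt n k) where
  carrier := {X | Tg H (ContinuousLinearMap.toSpanSingleton k X)}
  add_mem' := fun {a b} ha hb => by
    have := Tg.add ha hb
    rwa [← ContinuousLinearMap.toSpanSingleton_add] at this
  zero_mem' := by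
    have : ContinuousLinearMap.toSpanSingleton k (0 : Mt n k) = 0 := by ext1; simp
    exact (congrArg (Tg H) this).mpr Tg.zero
  smul_mem' := fun c X h => by
    have : ContinuousLinearMap.toSpanSingleton k (c • X) = (ContinuousLinearMap.toSpanSingleton k X).comp
      (ContinuousLinearMap.toSpanSingleton k c) := by ext1; simp
    exact (congrArg (Tg H) this).mpr (Tg.comp h _)

theorem mem_Tn {X : Mt n k} : X ∈ Tn H ↔
    ∃ γ : k → Mt n k, HasStrictDerivAt γ X 0 ∧ γ 0 = 1 ∧ ∀ᶠ t in 𝓝 0, Mem H (γ t) := Iff.rfl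

theorem Tn_mono (h : H ≤ G) : Tn H ≤ Tn G := fun _ a => Tg.mono h a

variable [CompleteSpace k]

/-- a linear map as a continuous linear map -/
noncomputable abbrev cl (f : Module.End k (Mt n k)) : Mt n k →L[k] Mt n k :=
  LinearMap.toContinuousLinearMap f

theorem Tn_Ad {g : GL (Fin n) k} (h : ∀ x ∈ H, g * x * g⁻¹ ∈ N) {X : Mt n k} (hX : X ∈ Tn H) :
    Ad g X ∈ Tn N := by
  obtain ⟨γ, a1, a2, a3⟩ := mem_Tn.1 hX
  exact mem_Tn.2 ⟨cl (Ad g) ∘ γ, (cl (Ad g)).hasStrictFDerivAt.comp_hasStrictDerivAt 0 a1,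
    by simpa [a2] using Ad_one g, a3.mono fun t => mem_Ad h⟩

/-- commutators -/
theorem Tn_comm {u : GL (Fin n) k} (h : ∀ x ∈ G, u * x * u⁻¹ * x⁻¹ ∈ H) {X : Mt n k}
    (hX : X ∈ Tn G) : Ad u X - X ∈ Tn H := by
  obtain ⟨γ, a1, a2, a3⟩ := mem_Tn.1 hX
  have e : (cl (Ad u) ∘ γ) 0 = 1 := by simpa [a2] using Ad_one u
  refine ⟨_, (hs_mul ((cl (Ad u)).hasStrictFDerivAt.comp_hasStrictDerivAt 0 a1)
    (hs_inv a1 a2) e (by simp [a2])).congr_fderiv (ContinuousLinearMap.ext fun t =>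
      show t • Ad u X + -(t • X) = t • (Ad u X - X) by rw [smul_sub, sub_eq_add_neg]),
    by rw [e, a2, inv_one, mul_one], a3.mono ?_⟩
  rintro t ⟨a, ha, e⟩
  exact ⟨_, h a ha, by simp [← e, Ad_apply]⟩

theorem Tg.of_Tn [FiniteDimensional k E] {L : E →L[k] Mt n k} (h : ∀ v, L v ∈ Tn H) : Tg H L := by
  let b := Module.finBasis k E
  have e : L = ∑ i, (ContinuousLinearMap.toSpanSingleton k (L (b i))).comp
      (LinearMap.toContinuousLinearMap (b.coord i)) := by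
    ext1 v
    conv_lhs => rw [← b.sum_repr v, map_sum]
    simp
  rw [e]
  exact Finset.sum_induction _ _ (fun _ _ => Tg.add) Tg.zero fun i _ => Tg.comp (h _) _

/-- a chart with a local inverse -/
theorem chart_inv {θ : Mt n k → Mt n k} (h1 : AnalyticAt k θ 1) (h2 : θ 1 = 0)
    (h3 : HasFDerivAt θ (ContinuousLinearMap.id k (Mt n k)) 1) :
    HasStrictFDerivAt θ (ContinuousLinearMap.id k (Mt n k)) 1 ∧ ∃ σ : Mt n k → Mt n k,
      HasStrictFDerivAt σ (ContinuousLinearMap.id k (Mt n k)) 0 ∧ σ 0 = 1 ∧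
      (∀ᶠ x in 𝓝 1, σ (θ x) = x) ∧ ∀ᶠ y in 𝓝 0, θ (σ y) = y := by
  haveI := FiniteDimensional.complete k (Mt n k)
  have h4 : HasStrictFDerivAt θ
      (ContinuousLinearEquiv.refl k (Mt n k) : Mt n k →L[k] Mt n k) 1 :=
    h1.hasStrictFDerivAt.congr_fderiv h3.fderiv
  exact ⟨h4, _, h2 ▸ h4.to_localInverse, h2 ▸ h4.localInverse_apply_image,
    h4.eventually_left_inverse, h2 ▸ h4.eventually_right_inverse⟩

theorem mem_of_curve {γ : k → Mt n k} {X : Mt n k} (h : HasDerivAt γ X 0) (h0 : γ 0 = 0)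
    (hg : ∀ᶠ t in 𝓝 0, γ t ∈ 𝔤) : X ∈ 𝔤 :=
  𝔤.closed_of_finiteDimensional.mem_of_tendsto (hasDerivAt_iff_tendsto_slope.1 h)
    ((hg.filter_mono nhdsWithin_le_nhds).mono fun t a => by
      rw [slope_def_module, h0, sub_zero (γ t)]; exact 𝔤.smul_mem _ a)

theorem Tn_eq (h : Chart G 𝔤) : Tn G = 𝔤 := by
  obtain ⟨θ, h1, h2, h3, h4⟩ := h
  obtain ⟨h5, σ, s1, s2, s3, s4⟩ := chart_inv h1 h2 h3
  refine le_antisymm (fun X hX => ?_) fun X hX => ?_
  · obtain ⟨γ, a1, a2, a3⟩ := mem_Tn.1 hX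
    rw [← a2] at h4 h5 h2
    exact mem_of_curve (h5.comp_hasStrictDerivAt 0 a1).hasDerivAt h2
      ((a3.and (a1.hasDerivAt.continuousAt.eventually h4)).mono fun t a => a.2.1 a.1)
  · let φ := ContinuousLinearMap.toSpanSingleton k X
    have c : Tendsto φ (𝓝 0) (𝓝 0) := φ.map_zero ▸ φ.continuous.tendsto 0
    have c2 : Tendsto σ (𝓝 0) (𝓝 1) := s2 ▸ s1.continuousAt
    rw [← φ.map_zero] at s1
    exact ⟨σ ∘ φ, s1.comp 0 φ.hasStrictFDerivAt, by simp [s2],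
      (c.eventually (s4.and (c2.eventually h4))).mono fun t a =>
        a.2.2 (a.1.symm ▸ 𝔤.smul_mem t hX)⟩

theorem Ad_mem (h : Chart G 𝔤) {g : GL (Fin n) k} (hg : g ∈ G) {X : Mt n k} (hX : X ∈ 𝔤) :
    Ad g X ∈ 𝔤 := by
  rw [← Tn_eq h] at hX ⊢
  exact Tn_Ad (fun x a => G.mul_mem (G.mul_mem hg a) (G.inv_mem hg)) hX

/-- a subgroup with all tangent vectors is open -/
theorem open_of_Tn (h : Chart G 𝔤) (hH : H ≤ G) (ht : 𝔤 ≤ Tn H) :
    ∀ᶠ x in 𝓝 (1 : Mt n k), Mem G x → Mem H x := by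
  obtain ⟨θ, h1, h2, h3, h4⟩ := h
  obtain ⟨h5, σ, s1, s2, s3, s4⟩ := chart_inv h1 h2 h3
  obtain ⟨γ, a1, a2, a3⟩ := Tg.of_Tn (H := H) (L := 𝔤.subtypeL) fun v => ht v.2
  obtain ⟨π, hπ⟩ := 𝔤.subtype.exists_leftInverse_of_injective 𝔤.ker_subtype
  let p := LinearMap.toContinuousLinearMap π
  have e : ∀ x (a : x ∈ 𝔤), (p x : Mt n k) = x := fun x a =>
    congrArg Subtype.val (LinearMap.congr_fun hπ ⟨x, a⟩)
  haveI := FiniteDimensional.complete k 𝔤
  have c : Tendsto γ (𝓝 0) (𝓝 1) := a2 ▸ a1.continuousAt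
  have c2 : Tendsto (p ∘ θ) (𝓝 1) (𝓝 0) := by
    simpa [h2] using (p.continuous.continuousAt.comp h5.continuousAt).tendsto
  rw [← a2] at h5
  have m := (p.hasStrictFDerivAt.comp 0 (h5.comp 0 a1)).map_nhds_eq_of_surj
    (LinearMap.range_eq_top.2 fun v => ⟨v, Subtype.ext (e _ v.2)⟩)
  rw [a2, h2, map_zero] at m
  have m2 := image_mem_map (m := fun t => p (θ (γ t))) (a3.and (c.eventually (h4.and s3)))
  rw [m] at m2
  filter_upwards [c2.eventually m2, h4, s3]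
  rintro x ⟨t, ⟨b1, b2, b3⟩, b4⟩ b5 b6 hx
  have := congrArg Subtype.val b4
  simp only [Function.comp] at this
  rw [e _ (b2.1 (mem_mono hH b1)), e _ (b5.1 hx)] at this
  rwa [← b6, ← this, b3]

/-- the chart attached to a projection onto the tangent space -/
theorem chart_pr (h : Chart G 𝔤) (π : Module.End k (Mt n k)) (h1 : ∀ x, π x ∈ 𝔤)
    (h2 : ∀ x ∈ 𝔤, π x = x) : ∃ θ : Mt n k → Mt n k, AnalyticAt k θ 1 ∧ θ 1 = 0 ∧
      HasFDerivAt θ (ContinuousLinearMap.id k (Mt n k)) 1 ∧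
      ∀ᶠ x in 𝓝 (1 : Mt n k), (Mem G x ↔ θ x ∈ 𝔤) ∧ (Mem G x → θ x = π (x - 1)) := by
  obtain ⟨θ, a1, a2, a3, a4⟩ := h
  refine ⟨fun x => cl π (x - 1) + (θ x - cl π (θ x)),
    (((cl π).analyticAt _).comp (analyticAt_id.sub analyticAt_const)).add
      (a1.sub (((cl π).analyticAt _).comp a1)), by simp [a2],
    ((((cl π).hasFDerivAt.comp 1 ((hasFDerivAt_id _).sub_const 1))).add
      (a3.sub ((cl π).hasFDerivAt.comp 1 a3))).congr_fderiv
      (ContinuousLinearMap.ext fun x => add_sub_cancel (π x) x),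
    a4.mono fun x a => ⟨a.trans ?_, fun b => ?_⟩⟩
  · exact ((𝔤.add_mem_iff_right (h1 _)).trans (𝔤.sub_mem_iff_left (h1 _))).symm
  · simp [h2 _ (a.1 b)]

/-- the centraliser of an element has a chart -/
theorem chart_cen (h : Chart G 𝔤) {c : GL (Fin n) k} (hc : c ∈ G) (π : Module.End k (Mt n k))
    (h1 : ∀ x, π x ∈ 𝔤) (h2 : ∀ x ∈ 𝔤, π x = x) (h3 : ∀ x, π (Ad c x) = Ad c (π x)) :
    Chart (G ⊓ Subgroup.centralizer {c}) (𝔤 ⊓ LinearMap.ker (Ad c - 1)) := by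
  obtain ⟨θ, a1, a2, a3, a4⟩ := chart_pr h π h1 h2
  obtain ⟨-, σ, -, -, s3, -⟩ := chart_inv a1 a2 a3
  have c1 : Tendsto (Ad c) (𝓝 1) (𝓝 1) := (cl (Ad c)).continuous.tendsto' _ _ (Ad_one c)
  refine ⟨θ, a1, a2, a3, ?_⟩
  filter_upwards [a4, s3, c1.eventually (a4.and s3)] with x b1 b2 b3
  have e : θ (Ad c x) = Ad c (θ x) ∨ ¬ Mem G x := or_not.imp_left fun a => by
    rw [b3.1.2 (mem_Ad (fun x a => G.mul_mem (G.mul_mem hc a) (G.inv_mem hc)) a), b1.2 a, ← h3,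
      map_sub (Ad c), Ad_one]
  simp only [Submodule.mem_inf, LinearMap.mem_ker, LinearMap.sub_apply, Module.End.one_apply,
    sub_eq_zero, ← b1.1]
  constructor
  · rintro ⟨g, ⟨g1, g2⟩, rfl⟩
    refine ⟨⟨g, g1, rfl⟩, (e.resolve_right fun a => a ⟨g, g1, rfl⟩).symm.trans ?_⟩
    rw [Ad_coe, Subgroup.mem_centralizer_iff.1 g2 c rfl, mul_inv_cancel_right]
  · rintro ⟨⟨g, g1, rfl⟩, g2⟩
    refine ⟨g, ⟨g1, Subgroup.mem_centralizer_iff.2 ?_⟩, rfl⟩
    rintro _ rfl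
    rw [(e.resolve_right fun a => a ⟨g, g1, rfl⟩).trans g2, b2, Ad_coe] at b3
    exact mul_inv_eq_iff_eq_mul.1 (Units.ext b3.2.symm)

end Vale.Agent.P092CQ
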