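import Mathlib.GroupTheory.Nilpotent
import Mathlib.GroupTheory.Schreier
import Mathlib.GroupTheory.FiniteAbelian.Basic
import Mathlib.Topology.Algebra.Group.ClosedSubgroup
import Mathlib.Topology.Algebra.Group.SubmonoidClosure
import Mathlib.Topology.Algebra.OpenSubgroup

/-!
P092, group side: products of commutators in pronilpotent groups, finiteness criteria.
-/

set_option linter.all false

open Subgroup Filter Topology
open scoped commutatorElement IsMulCommutative

namespace Vale.Agent.P092CQ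

section alg

variable {H H' : Type} [Group H] [Group H']

/-- products of commutators with the members of a list -/
def Cm : List H → Set H
  | [] => {1}
  | a :: l => {g | ∃ x : H, ∃ w ∈ Cm l, g = ⁅x, a⁆ * w}

theorem one_mem_Cm : ∀ l : List H, 1 ∈ Cm l
  | [] => rfl
  | _ :: l => ⟨1, 1, one_mem_Cm l, by simp⟩

theorem Cm_le {D : Subgroup H} [hD : D.Normal] : ∀ l : List H, (∀ a ∈ l, a ∈ D) → Cm l ⊆ D
  | [], _, _, h => h ▸ D.one_mem
  | a :: l, e, _, ⟨x, w, h, h2⟩ => h2 ▸ D.mul_mem (D.mul_mem (hD.conj_mem a (e a (by simp)) x)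
      (D.inv_mem (e a (by simp)))) (Cm_le l (fun b c => e b (by simp [c])) h)

theorem Cm_map (f : H →* H') (hf : Function.Surjective f) :
    ∀ (l : List H), ∀ g ∈ Cm (l.map f), ∃ w ∈ Cm l, f w = g
  | [], _, h => ⟨1, rfl, h ▸ f.map_one⟩
  | a :: l, _, ⟨x, w, h, h2⟩ => by
    obtain ⟨x, rfl⟩ := hf x
    obtain ⟨w, h3, rfl⟩ := Cm_map f hf l w h
    exact ⟨_, ⟨x, w, h3, rfl⟩, by rw [h2, map_mul, map_commutatorElement]⟩

theorem map_Cm (f : H →* H') : ∀ (l : List H), ∀ w ∈ Cm l, f w ∈ Cm (l.map f)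
  | [], _, h => h ▸ f.map_one
  | a :: l, _, ⟨x, w, h, h2⟩ => ⟨f x, _, map_Cm f l w h, by rw [h2, map_mul, map_commutatorElement]⟩

theorem Cm_mul {y a : H} (hc : ⁅y, a⁆ ∈ center H) :
    ∀ l : List H, a ∈ l → ∀ w ∈ Cm l, w * ⁅y, a⁆ ∈ Cm l
  | b :: l, h, _, ⟨x, w, h1, h2⟩ => by
    rcases List.mem_cons.1 h with rfl | h
    · refine ⟨x * y, w, h1, ?_⟩
      rw [h2, mul_assoc, mem_center_iff.1 hc w, ← mul_assoc, mem_center_iff.1 hc,
        show ⁅x * y, a⁆ = x * ⁅y, a⁆ * x⁻¹ * ⁅x, a⁆ by simp [commutatorElement_def, mul_assoc],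
        mem_center_iff.1 hc x, mul_inv_cancel_right]
    · exact ⟨x, _, Cm_mul hc l h w h1, by rw [h2, mul_assoc]⟩

/-- the list generates modulo the commutator subgroup -/
def Gn (l : List H) : Prop := ∀ N : Subgroup H, (∀ a ∈ l, a ∈ N) → _root_.commutator H ≤ N → N = ⊤

theorem Gn.map {l : List H} (h : Gn l) (f : H →* H') (hf : Function.Surjective f) :
    Gn (l.map f) := fun N h1 h2 => by
  rw [← map_comap_eq_self_of_surjective hf N, h (N.comap f) (fun a c => h1 _ (List.mem_map_of_mem c))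
    (map_le_iff_le_comap.1 ((map_commutator _ _ f).le.trans ((commutator_mono le_top le_top).trans h2))),
    map_top_of_surjective f hf]

theorem Cm_step {l : List H} (h : Gn l) {A : Subgroup H} (hc : ⁅A, ⊤⁆ ≤ center H) :
    ∀ z ∈ ⁅A, (⊤ : Subgroup H)⁆, ∀ w ∈ Cm l, w * z ∈ Cm l := by
  have c : ∀ y ∈ A, ∀ g, ⁅y, g⁆ ∈ center H := fun y a g => hc (commutator_mem_commutator a trivial)
  let T : Subgroup H :=
    { carrier := {z | ∀ w, w ∈ Cm l ↔ w * z ∈ Cm l}
      mul_mem' := fun a b w => by rw [← mul_assoc, ← b, ← a]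
      one_mem' := fun w => by rw [mul_one]
      inv_mem' := fun {z} a w => by rw [a (w * z⁻¹), inv_mul_cancel_right] }
  refine fun z hz w => ((commutator_le.2 fun y hy g _ => ?_ : _ ≤ T) hz w).1
  let φ : H →* center H := MonoidHom.mk' (fun g => ⟨_, c y hy g⟩) fun a b => Subtype.ext (by
    show ⁅y, a * b⁆ = ⁅y, a⁆ * ⁅y, b⁆
    rw [show ⁅y, a * b⁆ = ⁅y, a⁆ * (a * ⁅y, b⁆ * a⁻¹) by simp [commutatorElement_def, mul_assoc],
      mem_center_iff.1 (c y hy b) a, mul_inv_cancel_right])
  refine (h (T.comap ((center H).subtype.comp φ)) (fun a ha w => ⟨Cm_mul (c y hy a) l ha w, fun e => ?_⟩)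
    ((Abelianization.commutator_subset_ker φ).trans fun g e => ?_)).ge (mem_top g)
  · have := Cm_mul (c _ (A.inv_mem hy) a) l ha _ e
    rwa [show ⁅y⁻¹, a⁆ = y⁻¹ * ⁅y, a⁆⁻¹ * y by simp [commutatorElement_def, mul_assoc],
      mem_center_iff.1 (inv_mem (c y hy a)) y⁻¹, inv_mul_cancel_right,
      show ((center H).subtype.comp φ) a = ⁅y, a⁆ from rfl, mul_inv_cancel_right] at this
  · rw [Subgroup.mem_comap, MonoidHom.comp_apply, MonoidHom.mem_ker.1 e, map_one]
    exact T.one_mem

theorem Cm_lcs {l : List H} (h : Gn l) {g : H} (hg : g ∈ _root_.commutator H) (c : ℕ) :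
    ∃ w ∈ Cm l, w⁻¹ * g ∈ (⊤ : Subgroup H).lowerCentralSeries (c + 1) := by
  induction c with
  | zero => exact ⟨1, one_mem_Cm l, by rwa [inv_one, one_mul]⟩
  | succ c ih =>
    obtain ⟨w, h1, h2⟩ := ih
    let f := QuotientGroup.mk' ((⊤ : Subgroup H).lowerCentralSeries (c + 2))
    have hf : Function.Surjective f := QuotientGroup.mk'_surjective _
    have e : ∀ A : Subgroup H, ⁅A.map f, ⊤⁆ = Subgroup.map f ⁅A, ⊤⁆ := fun A => by
      rw [map_commutator, map_top_of_surjective f hf]
    obtain ⟨v, h3, h4⟩ := Cm_map f hf l _ (Cm_step (h.map f hf)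
      (A := ((⊤ : Subgroup H).lowerCentralSeries c).map f) (by
        rw [e, ← centralizer_univ, ← coe_top, ← commutator_eq_bot_iff_le_centralizer, e,
          Subgroup.map_eq_bot_iff, QuotientGroup.ker_mk']
        exact le_rfl) _ (e _ ▸ mem_map_of_mem f h2) _ (map_Cm f l w h1))
    rw [← map_mul, mul_inv_cancel_left] at h4
    exact ⟨v, h3, QuotientGroup.eq.1 h4⟩

/-- a finitely generated commutative group without homomorphisms to the integers is finite -/
theorem fin_comm {A : Type} [CommGroup A] [Group.FG A] {m : ℕ} (hm : m ≠ 0)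
    (h : ∀ χ : A →* Multiplicative ℤ, ∀ a, χ (a ^ m) = 1) : Finite A := by
  obtain ⟨ι, J, _, _, p, hp, e, ⟨f⟩⟩ := CommGroup.equiv_free_prod_prod_multiplicative_zmod A
  have : ∀ i, NeZero (p i ^ e i) := fun i => ⟨pow_ne_zero _ (hp i).ne_zero⟩
  have : IsEmpty J := ⟨fun j => by
    have := h ((Pi.evalMonoidHom _ j).comp ((MonoidHom.fst _ _).comp f.toMonoidHom))
      (f.symm (fun _ => Multiplicative.ofAdd 1, 1))
    simp [hm, ← ofAdd_nsmul] at this⟩
  exact Finite.of_equiv _ f.toEquiv.symm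

/-- a group with a finite invariant generating set and without homomorphisms to the integers -/
theorem fin_of_gen {M : Set H} (h1 : M.Finite) (h2 : closure M = ⊤)
    (h3 : ∀ g, ∀ m ∈ M, g * m * g⁻¹ ∈ M) (h : ∀ χ : H →* Multiplicative ℤ, ∀ a, χ a = 1) :
    Finite H := by
  have := h1.to_subtype
  have : Group.FG H := Group.fg_iff.2 ⟨M, h2, h1⟩
  have : Finite (H ⧸ center H) := by
    have e : ∀ a b : H, a⁻¹ * b ∈ center H ↔ ∀ m ∈ M, a * m * a⁻¹ = b * m * b⁻¹ := fun a b => by
      rw [← centralizer_univ, ← coe_top, ← h2, centralizer_closure, mem_centralizer_iff]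
      refine forall₂_congr fun m _ => ⟨fun e => ?_, fun e => ?_⟩
      · rw [eq_mul_inv_iff_mul_eq, mul_assoc, mul_assoc, e]; group
      · rw [← mul_right_inj a, ← mul_assoc, ← mul_assoc, e]; group
    refine Finite.of_injective (β := M → M) (Quotient.lift (fun g m => ⟨_, h3 g m m.2⟩) fun a b c =>
      funext fun m => Subtype.ext ((e a b).1 (QuotientGroup.leftRel_apply.1 c) m m.2)) ?_
    rintro ⟨a⟩ ⟨b⟩ c
    exact QuotientGroup.eq.2 ((e a b).2 fun m hm => congrArg Subtype.val (congrFun c ⟨m, hm⟩))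
  have := finiteIndex_of_finite_quotient (H := center H)
  have : Finite (center H) := fin_comm (FiniteIndex.index_ne_zero (H := center H)) fun χ a => by
    rw [← h (χ.comp (MonoidHom.transferCenterPow H)) a]
    rfl
  exact Finite.of_subgroup_quotient (center H)

end alg

section top

variable {P : Type} [Group P] [TopologicalSpace P] [IsTopologicalGroup P] [CompactSpace P]
  [T2Space P]

theorem isCompact_Cm : ∀ l : List P, IsCompact (Cm l)
  | [] => isCompact_singleton
  | a :: l => by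
    have e : (fun x : P × P => x.1 * a * x.1⁻¹ * a⁻¹ * x.2) '' (Set.univ ×ˢ Cm l) = Cm (a :: l) :=
      Set.ext fun g => ⟨fun ⟨x, b, c⟩ => ⟨_, _, b.2, c.symm⟩,
        fun ⟨x, w, b, c⟩ => ⟨(x, w), ⟨trivial, b⟩, c.symm⟩⟩
    rw [← e]
    exact (isCompact_univ.prod (isCompact_Cm l)).image (by fun_prop)

/-- In a pronilpotent group an open closed commutator subgroup lies in every dense normal
subgroup. -/
theorem comm_le (hK : ∀ U ∈ 𝓝 (1 : P), ∃ K : Subgroup P, K.Normal ∧ IsOpen (K : Set P) ∧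
      (K : Set P) ⊆ U ∧ ∃ c, (⊤ : Subgroup P).lowerCentralSeries c ≤ K)
    (D : Subgroup P) [D.Normal] (hd : Dense (D : Set P))
    (hq : IsOpen ((_root_.commutator P).topologicalClosure : Set P)) :
    (_root_.commutator P).topologicalClosure ≤ D := by
  have := quotient_finite_of_isOpen _ hq
  have := Fintype.ofFinite (P ⧸ (_root_.commutator P).topologicalClosure)
  choose a h1 h2 using fun q : P ⧸ (_root_.commutator P).topologicalClosure =>
    hd.exists_mem_open (hq.preimage (f := fun x => q.out⁻¹ * x) (by fun_prop))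
      ⟨q.out, show q.out⁻¹ * q.out ∈ (_root_.commutator P).topologicalClosure by
        rw [inv_mul_cancel]; exact Subgroup.one_mem _⟩
  intro g hg
  refine Cm_le (Finset.univ.toList.map a) (by simpa using h1)
    ((isCompact_Cm _).isClosed.closure_subset (mem_closure_iff_nhds.2 fun U hU => ?_))
  obtain ⟨K, k1, k2, k3, c, k4⟩ := hK _ ((by fun_prop : Continuous fun x => g * x⁻¹).continuousAt
    (show U ∈ 𝓝 (g * 1⁻¹) by simpa using hU))
  let f := QuotientGroup.mk' K
  have hf : Function.Surjective f := QuotientGroup.mk'_surjective _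
  have e : (_root_.commutator P).topologicalClosure ≤ (_root_.commutator (P ⧸ K)).comap f :=
    topologicalClosure_minimal _ (map_le_iff_le_comap.1 ((map_commutator _ _ f).le.trans
      (commutator_mono le_top le_top))) (Subgroup.isClosed_of_isOpen _ (isOpen_mono (H₁ := K)
        (fun x b => by
          rw [Subgroup.mem_comap, show f x = 1 from (QuotientGroup.eq_one_iff x).2 b]
          exact one_mem _) k2))
  obtain ⟨_, w1, w2⟩ := Cm_lcs (l := (Finset.univ.toList.map a).map f) (fun N b1 b2 =>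
    eq_top_iff.2 fun x _ => by
      obtain ⟨x, rfl⟩ := hf x
      have := N.mul_mem (N.mul_mem (b1 (f (a x)) (by simp)) (N.inv_mem (b2 (e (h2 x)))))
        (b2 (e (QuotientGroup.eq.1 (QuotientGroup.out_eq' (x : P ⧸ _)))))
      simpa [mul_assoc] using this) (e hg) c
  obtain ⟨w, w3, rfl⟩ := Cm_map f hf _ _ w1
  rw [← map_top_of_surjective f hf, ← map_lowerCentralSeries, (Subgroup.map_eq_bot_iff _).2
    ((Subgroup.lowerCentralSeries_antitone _ c.le_succ).trans (k4.trans (QuotientGroup.ker_mk' K).ge)),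
    Subgroup.mem_bot, ← map_inv, ← map_mul] at w2
  exact ⟨w, by simpa using k3 ((QuotientGroup.eq_one_iff _).1 w2), w3⟩

end top

end Vale.Agent.P092CQ
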