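import Vale.Agent.P092GP.Bru
import Vale.Agent.P092CQ.Grp

/-!
P092, group side: the elements `m(u)` of a linear package and the torus of `Gp`.
-/

set_option linter.all false

open Matrix Vale.Agent.P183CH Vale.Agent.P092GP Vale.Agent.P092GP.LD
open scoped commutatorElement

namespace Vale.Agent.P092CQ

variable {k G : Type} [Field k] [Group G] {L : LD k G} {i : Fin L.R.r} {u u' v n m m' z : G}

variable (L) in
/-- `m = m(u)` -/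
def Mm (i : Fin L.R.r) (u m : G) : Prop := u ∈ L.X (L.R.α i) ∧ u ≠ 1 ∧ L.Rep m (L.R.sE i) ∧
  ∃ v ∈ L.X (-L.R.α i), ∃ v' ∈ L.X (-L.R.α i), m = v * u * v'

variable (L) in
/-- the group generated by the `m(u)` -/
def N0 : Subgroup G := Subgroup.closure {m | ∃ i u, Mm L i u m}

theorem Mm.mem (a : Mm L i u m) : m ∈ N0 L := Subgroup.subset_closure ⟨i, u, a⟩

theorem N0_le : N0 L ≤ L.NJ Set.univ :=
  (Subgroup.closure_le _).2 fun _ ⟨i, _, a⟩ => ⟨_, RS.sE_mem_W i, a.2.2.1⟩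

theorem Mm.conj (a : Mm L i u m) (b : z ∈ L.Z0) : Mm L i (z * u * z⁻¹) (z * m * z⁻¹) := by
  obtain ⟨a1, a2, a3, v, a4, v', a5, rfl⟩ := a
  exact ⟨Z0_conj_UD b a1, fun e => a2 (conj_eq_one_iff.1 e), (a3.Z0_mul b).mul_Z0 (inv_mem b),
    _, Z0_conj_UD b a4, _, Z0_conj_UD b a5, by group⟩

variable (H : L.Ok)
include H

theorem mm_ex (a : u ∈ L.X (L.R.α i)) (b : u ≠ 1) : ∃ m, Mm L i u m :=
  let ⟨v, c, v', d, e⟩ := H.weyl' a b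
  ⟨_, a, b, e, v, c, v', d, rfl⟩

theorem rep_inv (a : L.Rep n (L.R.sE i)) : L.Rep n⁻¹ (L.R.sE i) := H.root.sE_inv i ▸ a.inv

theorem rep_flip (a : L.Rep n (L.R.sE i)) (b : v ∈ L.X (-L.R.α i)) :
    n * v * n⁻¹ ∈ L.X (L.R.α i) := by
  simpa only [map_neg, H.root.sE_α, neg_neg] using a.conj_X b

theorem X_Up : L.X (L.R.α i) ≤ L.Up := X_le_Up (H.α_pos i)

theorem X_Um : L.X (-L.R.α i) ≤ L.Um := X_le_Um (neg_lt_zero.2 (H.α_pos i))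

theorem mm_inv (a : Mm L i u m) : Mm L i u⁻¹ m⁻¹ := by
  obtain ⟨a1, a2, a3, v, a4, v', a5, rfl⟩ := a
  exact ⟨inv_mem a1, inv_ne_one.2 a2, rep_inv H a3, _, inv_mem a5, _, inv_mem a4, by group⟩

theorem mm_key (a : Mm L i u m) : ∃ v ∈ L.X (-L.R.α i), ∀ u' m', Mm L i u' m' →
    ∃ y ∈ L.X (-L.R.α i), ∃ x ∈ L.X (L.R.α i), u'⁻¹ * u * v = y * (m'⁻¹ * m) * x := by
  obtain ⟨a1, a2, a3, v, a4, v', a5, rfl⟩ := a
  refine ⟨v', a5, ?_⟩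
  rintro u' _ ⟨-, -, -, x, b4, x', b5, rfl⟩
  exact ⟨x', b5, _, rep_flip H (rep_inv H a3) (mul_mem b4 (inv_mem a4)), by group⟩

theorem mm_uniq (a : Mm L i u m) (b : Mm L i u m') : m' = m := by
  obtain ⟨v, c, d⟩ := mm_key H a
  obtain ⟨y, e, x, f, g⟩ := d _ _ b
  exact inv_mul_eq_one.1 (H.cell_uniq (X_Um H e) (X_Um H c) (b.2.2.1.div a.2.2.1).2 (one_mem _)
    (X_Up H f) (one_mem _) (by rw [← g]; group)).2.1

theorem mm_mul (a : Mm L i u m) (b : Mm L i u' m') (e : u * u' ≠ 1) :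
    ∃ c n, Mm L i c n ∧ Mm L i (u * u') (n * m * m') := by
  obtain ⟨a1, a2, a3, v, a4, v', a5, a6⟩ := a
  obtain ⟨b1, b2, b3, x, b4, x', b5, b6⟩ := b
  have z : m * m' ∈ L.Z0 := by simpa using (a3.div (rep_inv H b3)).1
  have f : u * u' = v⁻¹ * (m * (x * v')⁻¹ * m⁻¹) * (m * m') * x'⁻¹ := by rw [a6, b6]; group
  obtain ⟨n, c⟩ := mm_ex H (rep_flip H a3 (inv_mem (mul_mem b4 a5))) fun c => e
    (H.eq_one_of_Up (X_Up H (mul_mem a1 b1)) (by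
      rw [f, c, mul_one]
      exact mul_mem (mul_mem (Um_le_Bm (X_Um H (inv_mem a4))) (Z0_le_Bm z))
        (Um_le_Bm (X_Um H (inv_mem b5)))))
  refine ⟨_, n, c, mul_mem a1 b1, e, mul_assoc n m m' ▸ c.2.2.1.mul_Z0 z, ?_⟩
  obtain ⟨-, -, -, y, c4, y', c5, rfl⟩ := c
  exact ⟨_, mul_mem c4 a4, _, mul_mem b5 (Z0_conj_UD (inv_mem z) c5), by rw [f]; group⟩

theorem T_le_N0 : L.Gp ⊓ L.Z0 ≤ N0 L := by
  have e : ∀ j, L.nn j ∈ N0 L := fun j =>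
    let ⟨_, a, b, v, c, v', d, e, f⟩ := H.nn_spec j
    Mm.mem ⟨a, b, f, v, c, v', d, e⟩
  exact H.GJ_univ ▸ (H.GJ_inf_Z0 (T := N0 L ⊓ L.Z0) inf_le_right
    (fun j _ t a => ⟨(N0 L).mul_mem ((N0 L).mul_mem (e j) a.1) (inv_mem (e j)), (H.rep_nn j).conj_Z0 a.2⟩)
    fun j _ u a b v c v' d f => ⟨(N0 L).mul_mem (Mm.mem ⟨a, b, f, v, c, v', d, rfl⟩) (inv_mem (e j)),
      (f.div (H.rep_nn j)).1⟩).trans inf_le_left

/-- the maximum argument -/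
theorem chi (hf : ∀ u ∈ L.Up, IsOfFinOrder u) (χ : N0 L →* Multiplicative ℤ)
    (h : ∀ i, (χ '' {m | ∃ u, Mm L i u m.1}).Finite) (g : N0 L) : χ g = 1 := by
  refine DFunLike.congr_fun (MonoidHom.eq_of_eqOn_dense (g := 1)
    (Subgroup.closure_preimage_eq_top _) ?_) g
  rintro g ⟨i, u, a⟩
  obtain ⟨_, ⟨m, ⟨x, b⟩, rfl⟩, c⟩ := Set.exists_max_image _ Multiplicative.toAdd (h i)
    ⟨_, g, ⟨u, a⟩, rfl⟩
  have c1 : ∀ u (n : N0 L), Mm L i u n → (χ n).toAdd ≤ (χ m).toAdd ∧ -(χ n).toAdd ≤ (χ m).toAdd :=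
    fun u n d => ⟨c _ ⟨n, ⟨u, d⟩, rfl⟩, by simpa using c _ ⟨n⁻¹, ⟨_, mm_inv H d⟩, rfl⟩⟩
  have c2 : ∀ j, x ^ (j + 1) = 1 ∨ ∃ n : N0 L, Mm L i (x ^ (j + 1)) n ∧
      (χ n).toAdd = (χ m).toAdd := fun j => by
    induction j with
    | zero => exact Or.inr ⟨m, by rwa [zero_add, pow_one], rfl⟩
    | succ j ih =>
      rw [pow_succ]
      rcases ih with e | ⟨n, d, e⟩
      · exact Or.inr ⟨m, by rwa [e, one_mul], rfl⟩
      refine or_iff_not_imp_left.2 fun f => ?_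
      obtain ⟨y, p, f1, f2⟩ := mm_mul H d b f
      refine ⟨⟨p, f1.mem⟩ * n * m, f2, ?_⟩
      have h1 := (c1 _ (⟨p, f1.mem⟩ * n * m) f2).1
      have h2 := (c1 _ ⟨p, f1.mem⟩ f1).2
      simp only [map_mul, toAdd_mul] at h1 ⊢
      omega
  obtain ⟨j, hj, e⟩ := (hf x (X_Up H b.1)).exists_pow_eq_one
  have e2 : x ^ (2 * j - 2 + 1) = x⁻¹ := eq_inv_of_mul_eq_one_left (by
    rw [← pow_succ, show 2 * j - 2 + 1 + 1 = j * 2 by omega, pow_mul, e, one_pow])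
  have := c2 (2 * j - 2)
  rw [e2] at this
  obtain ⟨n, d, e3⟩ := this.resolve_left (inv_ne_one.2 b.2.1)
  rw [show n = m⁻¹ from Subtype.ext (mm_uniq H (mm_inv H b) d), map_inv, toAdd_inv] at e3
  have := c1 u g a
  exact toAdd_eq_zero.1 (by omega)

theorem conj_τ (a : n ∈ L.NJ Set.univ) (y : L.R.Q) (t : kˣ) :
    ∃ y', n * L.τ y t * n⁻¹ = L.τ y' t :=
  let ⟨_, _, b⟩ := a
  ⟨_, by simpa using H.rep_τ b.inv y t⟩

/-- finiteness of the torus of `Gp` modulo `D` and a lattice -/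
theorem fin_T (hf : ∀ u ∈ L.Up, IsOfFinOrder u) (π : kˣ) {D T : Subgroup G} (h0 : D ≤ L.Z0)
    (h1 : ∀ n ∈ L.NJ Set.univ, ∀ d ∈ D, n * d * n⁻¹ ∈ D)
    (h2 : ∀ i, ∃ F : Set G, F.Finite ∧ ∀ u m, Mm L i u m → ∃ f ∈ F, ∃ y, f⁻¹ * m * L.τ y π ∈ D)
    (h3 : T ≤ L.Gp ⊓ L.Z0) (h4 : ∀ g ∈ T, ∀ y, g * L.τ y π ∈ D → g ∈ D) : D.relIndex T ≠ 0 := by
  have z : ∀ g y, g * L.τ y π ∈ D → g ∈ L.Z0 := fun g y a =>
    (Subgroup.mul_mem_cancel_right _ (H.τ_mem_Z0 y π)).1 (h0 a)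
  let R : Subgroup G :=
    { carrier := {g | ∃ y, g * L.τ y π ∈ D}
      one_mem' := ⟨0, by rw [H.τ_zero, one_mul]; exact one_mem _⟩
      mul_mem' := fun {a b} ⟨y, c⟩ ⟨y', d⟩ => ⟨y + y', by
        rw [H.τ_add, ← mul_assoc, mul_assoc a, ← H.τ_comm0 y π (z b y' d)]
        simpa only [mul_assoc] using mul_mem c d⟩
      inv_mem' := fun {a} ⟨y, c⟩ => ⟨-y, by
        rw [H.τ_neg, ← _root_.mul_inv_rev, H.τ_comm0 y π (z a y c)]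
        exact inv_mem c⟩ }
  have r : (R.subgroupOf (N0 L)).Normal := ⟨fun g ⟨y, a⟩ n => by
    obtain ⟨y', b⟩ := conj_τ H (N0_le n.2) y π
    exact ⟨y', by simpa [← b, mul_assoc] using h1 _ (N0_le n.2) _ a⟩⟩
  let f := QuotientGroup.mk' (R.subgroupOf (N0 L))
  have hf' : Function.Surjective f := QuotientGroup.mk'_surjective _
  have e : ∀ i, (f '' {m | ∃ u, Mm L i u m.1}).Finite := fun i => by
    obtain ⟨F, a, b⟩ := h2 i
    refine (a.biUnion (t := fun x => f '' {m | x⁻¹ * m.1 ∈ R}) fun x _ =>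
      Set.Subsingleton.finite ?_).subset ?_
    · rintro _ ⟨m, c, rfl⟩ _ ⟨m', d, rfl⟩
      exact QuotientGroup.eq.2 (show (m : G)⁻¹ * m' ∈ R by
        simpa [mul_assoc] using R.mul_mem (R.inv_mem c) d)
    · rintro _ ⟨m, ⟨u, c⟩, rfl⟩
      obtain ⟨x, d, e⟩ := b u m c
      exact Set.mem_biUnion d ⟨m, e, rfl⟩
  have := H.root.finite_W
  have q : ∀ w : L.R.W, ∃ n : N0 L, L.Rep n w.1 := fun ⟨w, a⟩ => by
    obtain ⟨l, -, rfl⟩ := H.root.exists_wd a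
    refine ⟨⟨_, list_prod_mem fun x hx => ?_⟩, H.rep_nd l⟩
    obtain ⟨j, -, rfl⟩ := List.mem_map.1 hx
    obtain ⟨_, a, b, v, c, v', d, e, f⟩ := H.nn_spec j
    exact Mm.mem ⟨a, b, f, v, c, v', d, e⟩
  choose q hq using q
  have := fin_of_gen (M := {g | ∃ n, ∃ m ∈ f '' {m | ∃ i u, Mm L i u m.1}, g = n * m * n⁻¹})
    ((Set.finite_iUnion fun w => Set.finite_iUnion fun i =>
      (e i).image fun m => f (q w) * m * (f (q w))⁻¹).subset ?_) ?_ ?_ ?_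
  · refine fun c => (Subgroup.finiteIndex_of_finite_quotient
      (H := R.subgroupOf (N0 L))).index_ne_zero (Subgroup.relIndex_eq_zero_of_le_right
      (h3.trans (T_le_N0 H)) ?_)
    rw [← Subgroup.inf_relIndex_right]
    exact Subgroup.relIndex_eq_zero_of_le_left (fun g a => a.1.elim (h4 g a.2)) c
  · rintro _ ⟨n, _, ⟨m, ⟨i, u, a⟩, rfl⟩, rfl⟩
    obtain ⟨n, rfl⟩ := hf' n
    obtain ⟨w, b, c⟩ := N0_le n.2
    exact Set.mem_iUnion₂.2 ⟨⟨w, b⟩, i, _, ⟨(q ⟨w, b⟩)⁻¹ * n * m * ((q ⟨w, b⟩)⁻¹ * n)⁻¹,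
      ⟨_, a.conj ((hq ⟨w, b⟩).div c).2⟩, rfl⟩, by simp [mul_assoc]⟩
  · refine eq_top_iff.2 ((Subgroup.map_top_of_surjective f hf').ge.trans ?_)
    rw [← show Subgroup.closure {m : N0 L | ∃ i u, Mm L i u m.1} = ⊤ from
      Subgroup.closure_preimage_eq_top _, MonoidHom.map_closure]
    exact Subgroup.closure_mono fun m a => ⟨1, m, a, by simp⟩
  · rintro g _ ⟨n, m, a, rfl⟩
    exact ⟨g * n, m, a, by group⟩
  · intro χ a
    obtain ⟨a, rfl⟩ := hf' a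
    exact chi H hf (χ.comp f) (fun i => by
      rw [MonoidHom.coe_comp, Set.image_comp]
      exact (e i).image _) a

theorem exists_y : ∃ y : L.R.Q, (∀ μ : L.R.Q, 0 < μ → 0 < μ ⬝ᵥ y) ∧ ∀ t, L.τ y t ∈ L.Gp := by
  obtain ⟨w, a, n, b, c⟩ := H.exists_n0
  refine ⟨1 + -fun j => w (L.R.α j) ⬝ᵥ 1, fun μ d => ?_, fun t => ?_⟩
  · rw [← Int.cast_pos (R := ℝ), ← pr_cast]
    refine pr_pos d fun j => Int.cast_pos.2 ?_
    have : w (L.R.α j) ⬝ᵥ 1 ≤ 0 := Finset.sum_nonpos fun x _ => by simpa using a.2 j trivial x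
    simp only [Pi.add_apply, Pi.one_apply, Pi.neg_apply]
    omega
  · rw [H.τ_add, H.τ_neg, ← H.rep_τ c]
    rw [H.GJ_univ] at b
    simpa [mul_assoc] using mul_mem (H.normal_Gp.conj_mem _ (inv_mem b) (L.τ 1 t)) b

/-- one step along the filtration by the height -/
theorem ht_step {y : L.R.Q} {t : kˣ} (ht : ∀ j, ((t ^ (L.dg j ⬝ᵥ y) : kˣ) : k) - 1 ≠ 0) {c : ℕ}
    (a : u ∈ L.Up) (b : u ∈ UD L.wt L.ρ (dHt _ (c + 1))) :
    ⁅L.τ y t, L.x fun j => L.cf u j / (((t ^ (L.dg j ⬝ᵥ y) : kˣ) : k) - 1)⁆⁻¹ * u ∈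
      L.Up ⊓ UD L.wt L.ρ (dHt _ (c + 1 + 1)) := by
  rw [commutatorElement_def, H.τ_x, _root_.mul_inv_rev, inv_inv]
  have h0 := mul_mem (mul_mem (H.x_mem fun j => L.cf u j / (((t ^ (L.dg j ⬝ᵥ y) : kˣ) : k) - 1))
    (inv_mem (H.x_mem fun j => ((t ^ (L.dg j ⬝ᵥ y) : kˣ) : k) *
      (L.cf u j / (((t ^ (L.dg j ⬝ᵥ y) : kˣ) : k) - 1))))) a
  have h1 := H.x_mem_UD (F := dHt _ (c + 1))
    (s := fun j => L.cf u j / (((t ^ (L.dg j ⬝ᵥ y) : kˣ) : k) - 1)) fun j e =>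
    (H.mem_UD_iff a).1 b j fun f => e (by simp [f])
  have h2 := H.x_mem_UD (F := dHt _ (c + 1)) (s := fun j => ((t ^ (L.dg j ⬝ᵥ y) : kˣ) : k) *
      (L.cf u j / (((t ^ (L.dg j ⬝ᵥ y) : kˣ) : k) - 1))) fun j e =>
    (H.mem_UD_iff a).1 b j fun f => e (by simp [f])
  refine ⟨h0, (H.mem_UD_iff h0).2 fun j e => ?_⟩
  have h3 : ((c + 1 : ℕ) : ℤ) ≤ ∑ i, L.dg j i :=
    (H.mem_UD_iff h0).1 (mul_mem (mul_mem h1 (inv_mem h2)) b) j e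
  refine (Int.add_one_le_of_lt (lt_of_le_of_ne h3 fun f => e ?_) :)
  have h6 : ∀ x ∈ dHt L.R.r (c + 1), ∀ y ∈ dHt L.R.r (c + 1), x + y ≠ L.dg j := fun x a y b e => by
    have a' : ((c + 1 : ℕ) : ℤ) ≤ ∑ i, x i := a
    have b' : ((c + 1 : ℕ) : ℤ) ≤ ∑ i, y i := b
    simp only [← e, Pi.add_apply, Finset.sum_add_distrib] at f
    omega
  have h7 := H.cf_mul h2 (inv_mem h2) h6
  rw [mul_inv_cancel, H.cf_one, H.cf_x, Pi.zero_apply, eq_comm, ← neg_eq_iff_add_eq_zero] at h7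
  rw [H.cf_mul (mul_mem h1 (inv_mem h2)) b h6, H.cf_mul h1 (inv_mem h2) h6, ← h7, H.cf_x]
  have := ht j
  field_simp
  ring

theorem exists_ht : ∃ T : ℕ, ∀ u ∈ UD L.wt L.ρ (dHt _ T), u = 1 := by
  obtain ⟨T, hT⟩ := (Set.finite_range fun p : Fin L.n × Fin L.n =>
    ∑ i, (L.wt p.1 - L.wt p.2) i).bddAbove
  refine ⟨T.toNat + 1, fun u a => H.inj ?_⟩
  rw [map_one, ← sub_eq_zero]
  refine Matrix.ext fun p q => a p q fun c => ?_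
  have h1 : ((T.toNat + 1 : ℕ) : ℤ) ≤ ∑ i, (L.wt p - L.wt q) i := c
  have h2 : ∑ i, (L.wt p - L.wt q) i ≤ T := hT ⟨(p, q), rfl⟩
  omega

theorem Up_le_ht : L.Up ≤ UD L.wt L.ρ (dHt _ (0 + 1)) :=
  UD_mono fun _ c => show ((0 + 1 : ℕ) : ℤ) ≤ _ from ht_pos c

/-- in positive characteristic unipotent elements have finite order -/
theorem fin_order (p : ℕ) [hp : Fact p.Prime] [CharP k p] (u : G) (a : u ∈ L.Up) :
    IsOfFinOrder u := by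
  obtain ⟨T, hT⟩ := exists_ht H
  refine isOfFinOrder_iff_pow_eq_one.2 ⟨p ^ T, pow_pos hp.out.pos T,
    hT _ (UD_mono (F := dHt _ (T + 1)) (fun x (c : ((T + 1 : ℕ) : ℤ) ≤ _) =>
      show (T : ℤ) ≤ _ by omega) ?_)⟩
  clear hT
  induction T with
  | zero => simpa using Up_le_ht H a
  | succ c ih =>
    have h0 := pow_mem a (p ^ c)
    rw [pow_succ, pow_mul]
    refine (H.mem_UD_iff (pow_mem h0 p)).2 fun j e => ?_
    have h3 : ((c + 1 : ℕ) : ℤ) ≤ ∑ i, L.dg j i :=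
      (H.mem_UD_iff (pow_mem h0 p)).1 (pow_mem ih p) j e
    refine (Int.add_one_le_of_lt (lt_of_le_of_ne h3 fun f => e ?_) :)
    have h4 : ∀ q : ℕ, L.cf ((u ^ p ^ c) ^ q) j = q * L.cf (u ^ p ^ c) j := fun q => by
      induction q with
      | zero => simp [H.cf_one]
      | succ q ih2 =>
        rw [pow_succ, H.cf_mul (pow_mem ih q) ih fun x a y b e => by
          have a' : ((c + 1 : ℕ) : ℤ) ≤ ∑ i, x i := a
          have b' : ((c + 1 : ℕ) : ℤ) ≤ ∑ i, y i := b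
          simp only [← e, Pi.add_apply, Finset.sum_add_distrib] at f
          omega, ih2, Nat.cast_succ, add_mul, one_mul]
    rw [h4, CharP.cast_eq_zero, zero_mul]

end Vale.Agent.P092CQ
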