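import Vale.Agent.P092GP.DefsT
import Vale.Agent.P092CQ.Mm
import Mathlib.Topology.Algebra.MvPolynomial
import Mathlib.Analysis.Normed.Ring.Units
import Mathlib.Analysis.Normed.Group.Ultra
import Mathlib.Data.Int.LeastGreatest

/-!
P092, group side: the group `Gp` of a linear package is closed in positive characteristic.
-/

set_option linter.all false

open Matrix Vale.Agent.P183CH Vale.Agent.P092GP Vale.Agent.P092GP.LD Filter Topology
open scoped commutatorElement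

namespace Vale.Agent.P092CQ

variable {k G : Type} [NontriviallyNormedField k] [Group G] {L : LD k G}

section bd

variable {n : ℕ} {M M' : Matrix (Fin n) (Fin n) k} {r s : ℝ}

/-- bounded entries -/
def Bd (r : ℝ) (M : Matrix (Fin n) (Fin n) k) : Prop := ∀ a b, ‖M a b‖ ≤ r

theorem Bd.mono (h : Bd r M) (e : r ≤ s) : Bd s M := fun a b => (h a b).trans e

theorem Bd.neg (h : Bd r M) : Bd r (-M) := fun a b => (norm_neg _).trans_le (h a b)

theorem Bd.one : Bd 1 (1 : Matrix (Fin n) (Fin n) k) := fun a b => by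
  rw [Matrix.one_apply]
  split_ifs <;> simp

variable [IsUltrametricDist k]

theorem Bd.add (h : Bd r M) (h' : Bd r M') : Bd r (M + M') := fun a b =>
  (IsUltrametricDist.norm_add_le_max _ _).trans (max_le (h a b) (h' a b))

theorem Bd.mul (h : Bd r M) (h' : Bd s M') (hr : 0 ≤ r) (hs : 0 ≤ s) : Bd (r * s) (M * M') :=
  fun a b => by
  rw [Matrix.mul_apply]
  exact IsUltrametricDist.norm_sum_le_of_forall_le_of_nonneg (mul_nonneg hr hs) fun c _ =>
    (norm_mul_le _ _).trans (mul_le_mul (h a c) (h' c b) (norm_nonneg _) hr)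

theorem Bd.mul_sub (h : Bd r (M - 1)) (h' : Bd r (M' - 1)) (h0 : 0 ≤ r) (h1 : r ≤ 1) :
    Bd r (M * M' - 1) := by
  rw [show M * M' - 1 = (M - 1) * (M' - 1) + (M - 1) + (M' - 1) by noncomm_ring]
  exact (((h.mul h' h0 h0).mono (mul_le_of_le_one_left h0 h1)).add h).add h'

theorem Bd.comm {N : Matrix (Fin n) (Fin n) k} (h : Bd r (M - 1)) (h' : Bd s (M' - 1))
    (e : Bd 1 (N - 1)) (hr : 0 ≤ r) (hs : 0 ≤ s) : Bd (r * s) ((M * M' - M' * M) * N) := by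
  rw [show M * M' - M' * M = (M - 1) * (M' - 1) + -((M' - 1) * (M - 1)) by noncomm_ring]
  simpa using ((h.mul h' hr hs).add (mul_comm s r ▸ (h'.mul h hs hr).neg)).mul (e.add Bd.one)
    (mul_nonneg hr hs) zero_le_one

end bd

theorem hp0 (j : ℕ) : (0 : ℝ) ≤ 2⁻¹ ^ j := by positivity

theorem hp1 (j : ℕ) : (2⁻¹ : ℝ) ^ j ≤ 1 := pow_le_one₀ (by norm_num) (by norm_num)

variable [IsUltrametricDist k] {i : Fin L.R.r} {j j' : ℕ} {g h u m : G} {y : L.R.Q} {π t : kˣ}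
  {F : AddSubsemigroup L.R.Q}

variable (L) in
/-- congruence subgroups -/
def KK (j : ℕ) : Subgroup G where
  carrier := {g | Bd (2⁻¹ ^ j) (L.ρ g - 1) ∧ Bd (2⁻¹ ^ j) (L.ρ g⁻¹ - 1)}
  one_mem' := ⟨fun a b => by simp, fun a b => by simp⟩
  mul_mem' := fun a b => ⟨map_mul L.ρ _ _ ▸ a.1.mul_sub b.1 (hp0 j) (hp1 j), by
    rw [_root_.mul_inv_rev, map_mul]
    exact b.2.mul_sub a.2 (hp0 j) (hp1 j)⟩
  inv_mem' := fun a => ⟨a.2, by rw [inv_inv]; exact a.1⟩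

theorem KK_anti (e : j ≤ j') : KK L j' ≤ KK L j := fun _ a =>
  have := pow_le_pow_of_le_one (by norm_num : (0 : ℝ) ≤ 2⁻¹) (by norm_num) e
  ⟨a.1.mono this, a.2.mono this⟩

theorem KK_comm (a : g ∈ KK L j) (b : h ∈ KK L j') : ⁅g, h⁆ ∈ KK L (j + j') := by
  have e : ∀ {g h : G} {j j' : ℕ}, g ∈ KK L j → h ∈ KK L j' →
      Bd (2⁻¹ ^ (j + j')) (L.ρ ⁅g, h⁆ - 1) := fun {g h j j'} a b => by
    rw [show L.ρ ⁅g, h⁆ - 1 = (L.ρ g * L.ρ h - L.ρ h * L.ρ g) * L.ρ (h * g)⁻¹ by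
      rw [sub_mul, ← map_mul, ← map_mul, ← map_mul, ← map_mul, mul_inv_cancel, map_one,
        commutatorElement_def, _root_.mul_inv_rev, mul_assoc (g * h)], pow_add]
    exact a.1.comm b.1 (by simpa using (mul_mem (KK_anti j'.zero_le b) (KK_anti j.zero_le a)).2)
      (hp0 _) (hp0 _)
  exact ⟨e a b, by rw [commutatorElement_inv, add_comm]; exact e b a⟩

/-- contraction -/
theorem ctr (H : L.Ok) (hy : ∀ μ ∈ F, 0 < μ ⬝ᵥ y) (ht : ‖(t : k)‖ ≤ 1) (a : u ∈ UD L.wt L.ρ F)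
    (p q : Fin L.n) :
    ‖(L.ρ (L.τ y t * u * (L.τ y t)⁻¹) - 1) p q‖ ≤ ‖(t : k)‖ * ‖(L.ρ u - 1) p q‖ := by
  have e := H.τ_conj y t 1 p q
  rw [mul_one, mul_inv_cancel, map_one] at e
  rw [Matrix.sub_apply, H.τ_conj, e, ← mul_sub, ← Matrix.sub_apply, norm_mul]
  by_cases c : (L.ρ u - 1) p q = 0
  · simp [c]
  refine mul_le_mul_of_nonneg_right ?_ (norm_nonneg _)
  rw [Units.val_zpow_eq_zpow_val, norm_zpow]
  exact (zpow_le_zpow_right_of_le_one₀ (norm_pos_iff.2 t.ne_zero) ht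
    (hy _ (sup_iff.1 a p q c))).trans_eq (zpow_one _)

theorem τ_eq_one (H : L.Ok) (hπ : ‖(π : k)‖ < 1) (a : L.τ y π ∈ KK L 1) : L.τ y π = 1 := by
  refine H.inj ?_
  rw [H.tor, map_one, ← diagonal_one]
  refine congrArg _ (funext fun p => ?_)
  have := a.1 p p
  rw [H.tor, Matrix.sub_apply, diagonal_apply_eq, one_apply_eq] at this
  have e := IsUltrametricDist.norm_add_eq_max_of_norm_ne_norm
    (this.trans_lt (show _ < ‖(1 : k)‖ by norm_num)).ne
  rw [sub_add_cancel, norm_one, max_eq_right (this.trans (hp1 1)), Units.val_zpow_eq_zpow_val,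
    norm_zpow, zpow_eq_one_iff_right₀ (norm_nonneg _) hπ.ne] at e
  rw [e, zpow_zero, Units.val_one]

variable [TopologicalSpace G] [IsTopologicalGroup G]

variable (L) in
/-- the topological facts which are used -/
structure Tp : Prop where
  lp : L.LP
  cl : IsClosedEmbedding L.ρ
  cell : ∀ V ∈ 𝓝 (1 : G), ∀ᶠ g in 𝓝 (1 : G), ∃ v ∈ L.Um, ∃ z ∈ L.Z0, ∃ u ∈ L.Up,
    v ∈ V ∧ z ∈ V ∧ u ∈ V ∧ g = v * z * u

variable (T : Tp L)
include T

theorem cont_ent (p q : Fin L.n) : Continuous fun g => (L.ρ g - 1) p q :=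
  (T.cl.continuous.sub continuous_const).matrix_elem p q

theorem KK_open (j : ℕ) : IsOpen (KK L j : Set G) := by
  have e : ∀ᶠ g in 𝓝 (1 : G), Bd (2⁻¹ ^ j) (L.ρ g - 1) :=
    eventually_all.2 fun p => eventually_all.2 fun q =>
      (cont_ent T p q).norm.continuousAt.eventually_le_const (by simp)
  exact Subgroup.isOpen_of_mem_nhds _ (e.and ((continuous_inv.tendsto' 1 1 inv_one).eventually e))

theorem KK_nhds (j : ℕ) : (KK L j : Set G) ∈ 𝓝 1 := (KK_open T j).mem_nhds (one_mem _)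

theorem KK_basis {U : Set G} (hU : U ∈ 𝓝 1) : ∃ j, (KK L j : Set G) ⊆ U := by
  rw [T.cl.isInducing.nhds_eq_comap] at hU
  obtain ⟨V, hV, e⟩ := hU
  obtain ⟨j, -, hj⟩ := (Metric.nhds_basis_closedBall_pow (α := Fin L.n → Fin L.n → k)
    (x := L.ρ 1) (r := 2⁻¹) (by norm_num) (by norm_num)).mem_iff.1 hV
  refine ⟨j, fun g a => e (hj ((dist_pi_le_iff (hp0 j)).2 fun p =>
    (dist_pi_le_iff (hp0 j)).2 fun q => ?_))⟩
  rw [dist_eq_norm, map_one]
  exact a.1 p q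

theorem KK_cpt (j : ℕ) : IsCompact (KK L j : Set G) :=
  have := T.lp.prop
  (T.cl.isCompact_preimage (isCompact_closedBall (α := Fin L.n → Fin L.n → k) (1 : Matrix _ _ k)
    1)).of_isClosed_subset (Subgroup.isClosed_of_isOpen _ (KK_open T j)) fun g a =>
    (dist_pi_le_iff zero_le_one).2 fun p => (dist_pi_le_iff zero_le_one).2 fun q =>
      (dist_eq_norm _ _).trans_le ((a.1 p q).trans (hp1 j))

theorem UD_closed (F : AddSubsemigroup L.R.Q) : IsClosed (UD L.wt L.ρ F : Set G) := by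
  show IsClosed {g | ∀ p q, _ → (L.ρ g - 1) p q = 0}
  simp only [Set.setOf_forall]
  exact isClosed_iInter fun p => isClosed_iInter fun q => isClosed_iInter fun _ =>
    isClosed_eq (cont_ent T p q) continuous_const

theorem Z0_closed : IsClosed (L.Z0 : Set G) := by
  show IsClosed {g | ∀ p q, _ → L.ρ g p q = 0}
  simp only [Set.setOf_forall]
  exact isClosed_iInter fun p => isClosed_iInter fun q => isClosed_iInter fun _ =>
    isClosed_eq (T.cl.continuous.matrix_elem p q) continuous_const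

theorem ctr_lim (hy : ∀ μ ∈ F, 0 < μ ⬝ᵥ y) (hπ : ‖(π : k)‖ < 1) (a : u ∈ UD L.wt L.ρ F) :
    Tendsto (fun n : ℕ => L.τ y (π ^ n) * u * (L.τ y (π ^ n))⁻¹) atTop (𝓝 1) := by
  refine T.cl.isInducing.tendsto_nhds_iff.2 (tendsto_pi_nhds.2 fun p => tendsto_pi_nhds.2 fun q =>
    tendsto_iff_norm_sub_tendsto_zero.2 (squeeze_zero (g := fun n : ℕ =>
      ‖(π : k)‖ ^ n * ‖(L.ρ u - 1) p q‖) (fun _ => norm_nonneg _) (fun n => ?_) ?_))
  · rw [map_one, ← norm_pow]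
    exact ctr T.lp.ok hy (by simpa using pow_le_one₀ (norm_nonneg _) hπ.le) a p q
  · simpa using (tendsto_pow_atTop_nhds_zero_of_lt_one (norm_nonneg _) hπ).mul_const _

/-- a compact fundamental domain for the contraction -/
theorem cover (hy : ∀ μ ∈ F, 0 < μ ⬝ᵥ y) (hπ : ‖(π : k)‖ < 1) (a : u ∈ UD L.wt L.ρ F)
    (b : u ≠ 1) : ∃ j : ℤ, L.τ y (π ^ j) * u * (L.τ y (π ^ j))⁻¹ ∈ KK L 0 ∧
      (L.τ y π)⁻¹ * (L.τ y (π ^ j) * u * (L.τ y (π ^ j))⁻¹) * L.τ y π ∉ KK L 0 := by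
  have H := T.lp.ok
  obtain ⟨p, q, c⟩ : ∃ p q, (L.ρ u - 1) p q ≠ 0 := by
    by_contra c
    push Not at c
    exact b (H.inj ((sub_eq_zero.1 (Matrix.ext c)).trans (map_one _).symm))
  obtain ⟨n, hn⟩ := exists_pow_lt_of_lt_one (norm_pos_iff.2 c) hπ
  obtain ⟨j, e, f⟩ := Int.exists_least_of_bdd
    (P := fun j => L.τ y (π ^ j) * u * (L.τ y (π ^ j))⁻¹ ∈ KK L 0) ⟨-n, fun j e => by
      by_contra d
      have h1 : ‖((π ^ (-j) : kˣ) : k)‖ ≤ ‖(π : k)‖ ^ n := by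
        rw [Units.val_zpow_eq_zpow_val, norm_zpow, ← zpow_natCast]
        exact zpow_le_zpow_right_of_le_one₀ (norm_pos_iff.2 π.ne_zero) hπ.le (by omega)
      have h2 := ctr H hy (h1.trans (pow_le_one₀ (norm_nonneg _) hπ.le))
        (Z0_conj_UD (H.τ_mem_Z0 y (π ^ j)) a) p q
      rw [show L.τ y (π ^ (-j)) * (L.τ y (π ^ j) * u * (L.τ y (π ^ j))⁻¹) * (L.τ y (π ^ (-j)))⁻¹ = u
        by simp [H.τ_inv, mul_assoc]] at h2
      exact (h2.trans (mul_le_mul h1 (e.1 p q) (norm_nonneg _) (by positivity))).not_gt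
        (by simpa using hn)⟩ (by
      obtain ⟨n, e⟩ := ((ctr_lim T hy hπ a).eventually (KK_nhds T 0)).exists
      exact ⟨n, by rwa [zpow_natCast]⟩)
  refine ⟨j, e, fun d => (f (-1 + j) ?_).not_gt (by omega)⟩
  simpa [_root_.zpow_add, H.τ_mul, H.τ_inv, mul_assoc] using d

theorem a1 {A : Subgroup G} (hA : ∀ᶠ g in 𝓝 1, g ∈ L.Gp → g ∈ A) :
    ∀ᶠ u in 𝓝 1, u ∈ L.Up → u ∈ ⁅A, A⁆ := by
  have H := T.lp.ok
  have := T.lp.prop
  obtain ⟨y, hy, hy'⟩ := exists_y H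
  have c1 : Continuous (L.τ y) := T.cl.isInducing.continuous_iff.2 (by
    simp only [Function.comp_def, H.tor]
    exact (continuous_pi fun p => Units.continuous_val.comp (continuous_zpow _)).matrix_diagonal)
  have c2 : Continuous L.x := T.cl.isInducing.continuous_iff.2 (continuous_matrix fun p q => by
    simp only [Function.comp_def, H.x_apply]
    exact MvPolynomial.continuous_eval _)
  have c3 : ∀ j, Continuous fun g => L.cf g j := fun j => by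
    simp only [cf, co]
    exact continuous_finsetSum _ fun p _ => continuous_finsetSum _ fun q _ =>
      continuous_const.mul (T.cl.continuous.matrix_elem p q)
  obtain ⟨_, ⟨t, ht, rfl⟩, e⟩ := (infinite_of_mem_nhds _ (Units.isOpenEmbedding_val.image_mem_nhds.2
    ((c1.tendsto' 1 1 (H.τ_one y)).eventually hA))).exists_notMem_finite
    (Set.finite_iUnion fun j =>
      (Polynomial.nthRootsFinset (L.dg j ⬝ᵥ y).toNat (1 : k)).finite_toSet)
  have e' : ∀ j, ((t ^ (L.dg j ⬝ᵥ y) : kˣ) : k) - 1 ≠ 0 := fun j c => e (Set.mem_iUnion.2 ⟨j, by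
    have := hy _ (H.dg_pos j)
    rw [Finset.mem_coe, Polynomial.mem_nthRootsFinset (by omega), ← zpow_natCast,
      Int.toNat_of_nonneg this.le, ← Units.val_zpow_eq_zpow_val, sub_eq_zero.1 c]⟩)
  have c4 : Tendsto (fun u => L.x fun j => L.cf u j / (((t ^ (L.dg j ⬝ᵥ y) : kˣ) : k) - 1))
      (𝓝 1) (𝓝 1) := (c2.comp (continuous_pi fun j => (c3 j).div_const _)).tendsto' _ _ (by
    simp only [Function.comp_def, H.cf_one, Pi.zero_apply, zero_div]
    exact H.x_zero)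
  obtain ⟨N, hN⟩ := exists_ht H
  have key : ∀ d c : ℕ, N ≤ c + 1 + d → ∀ᶠ u in 𝓝 1, u ∈ L.Up →
      u ∈ UD L.wt L.ρ (dHt _ (c + 1)) → u ∈ ⁅A, A⁆ := fun d => by
    induction d with
    | zero =>
      exact fun c e => Eventually.of_forall fun u _ b => hN u (UD_mono
        (fun x (f : ((c + 1 : ℕ) : ℤ) ≤ _) => show (N : ℤ) ≤ _ by omega) b) ▸ one_mem _
    | succ d ih =>
      intro c e
      have c5 := (((tendsto_const_nhds (x := L.τ y t)).mul c4).mul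
        (tendsto_const_nhds (x := (L.τ y t)⁻¹))).mul c4.inv |>.inv.mul tendsto_id
      simp only [mul_one, mul_inv_cancel, inv_one] at c5
      filter_upwards [c5.eventually (ih (c + 1) (by omega)), c4.eventually hA] with u f1 f2 a b
      have := ht_step H e' a b
      exact (Subgroup.mul_mem_cancel_left _ (inv_mem (Subgroup.commutator_mem_commutator
        (ht (hy' t)) (f2 (Up_le_Gp (H.x_mem _)))))).1 (f1 this.1 this.2)
  exact (key N 0 (by omega)).mono fun u a b => a b (Up_le_ht H b)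

theorem a1' {A : Subgroup G} (hA : ∀ᶠ g in 𝓝 1, g ∈ L.Gp → g ∈ A) :
    ∀ᶠ u in 𝓝 1, u ∈ L.Up ∨ u ∈ L.Um → u ∈ ⁅A, A⁆ := by
  have H := T.lp.ok
  obtain ⟨w, a, n, -, b⟩ := H.exists_n0
  have c : ∀ n : G, Tendsto (fun g => n * g * n⁻¹) (𝓝 1) (𝓝 1) := fun n =>
    Continuous.tendsto' (by fun_prop) _ _ (by simp)
  filter_upwards [a1 T hA, (c n).eventually (a1 T (A := A.comap (MulAut.conj n⁻¹).toMonoidHom)
    (((c n⁻¹).eventually hA).mono fun g d e => d (H.normal_Gp.conj_mem g e _)))] with u d e f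
  refine f.elim d fun f => ?_
  have := Subgroup.mem_map_of_mem (MulAut.conj n⁻¹).toMonoidHom (e (H.lg_Um b a f))
  rw [Subgroup.map_commutator] at this
  simpa [mul_assoc] using Subgroup.commutator_mono (Subgroup.map_comap_le _ _)
    (Subgroup.map_comap_le _ _) this

omit T in
variable (L) in
/-- the invariant part of `Q` in the centraliser of the torus -/
def DD (Q : Subgroup G) : Subgroup G :=
  L.Z0 ⊓ ⨅ n ∈ L.NJ Set.univ, Q.comap (MulAut.conj n).toMonoidHom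

omit T in
theorem mem_DD {Q : Subgroup G} :
    g ∈ DD L Q ↔ g ∈ L.Z0 ∧ ∀ n ∈ L.NJ Set.univ, n * g * n⁻¹ ∈ Q := by
  simp [DD, Subgroup.mem_iInf]

theorem DD_mem {Q : Subgroup G} (hQ : ∀ᶠ u in 𝓝 1, u ∈ L.Up ∨ u ∈ L.Um → u ∈ Q) :
    ∃ V ∈ 𝓝 (1 : G), ∀ i, ∀ z ∈ L.Z0, z ∈ Subgroup.closure
      ((L.X (L.R.α i) ∪ L.X (-L.R.α i)) ∩ V) → z ∈ DD L Q := by
  have H := T.lp.ok
  obtain ⟨C, c1, c2, c3⟩ := T.lp.cpt
  have := H.root.finite_W
  choose q _ hq using fun w : L.R.W => H.exists_rep' w.2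
  refine ⟨_, eventually_all.2 fun w => c1.eventually_forall_of_forall_eventually
    (P := fun u c => q w * c * u * (q w * c)⁻¹ ∈ {u | u ∈ L.Up ∨ u ∈ L.Um → u ∈ Q}) fun c _ =>
      (Continuous.tendsto' (f := fun z : G × G => q w * z.2 * z.1 * (q w * z.2)⁻¹) (by fun_prop) _ _
        (by simp)).eventually hQ, fun i z a b => mem_DD.2 ⟨a, ?_⟩⟩
  rintro n ⟨w, d, e⟩
  obtain ⟨s, hs, c, hc, f⟩ := c3 _ ((hq ⟨w, d⟩).div e).2
  have r := (hq ⟨w, d⟩).mul_Z0 (c2 hc)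
  have r' : ∀ γ ∈ L.R.Φ, ∀ u ∈ L.X γ, q ⟨w, d⟩ * c * u * (q ⟨w, d⟩ * c)⁻¹ ∈ L.Up ∨
      q ⟨w, d⟩ * c * u * (q ⟨w, d⟩ * c)⁻¹ ∈ L.Um := fun γ a u b =>
    (H.root.sign' d a).imp (fun f => X_le_Up (root_pos H.root (H.root.map_mem d a) f) (r.conj_X b))
      fun f => X_le_Um (root_neg H.root (H.root.map_mem d a) f) (r.conj_X b)
  rw [inv_mul_eq_iff_eq_mul.1 f, H.S_comm hs (c2 hc), ← mul_assoc, mul_assoc _ s, H.S_comm hs a,
    _root_.mul_inv_rev _ s, ← mul_assoc, ← mul_assoc, mul_inv_cancel_right]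
  exact (Subgroup.closure_le (Q.comap (MulAut.conj (q ⟨w, d⟩ * c)).toMonoidHom)).2
    (fun u a => a.2 _ c hc (a.1.elim (r' _ (H.root.simple i) u)
      (r' _ (H.root.neg_mem (H.root.simple i)) u))) b

/-- `m(u)` is locally constant modulo `D` -/
theorem loc_const {D : Subgroup G} {V : Set G} (hV : V ∈ 𝓝 1) (hD : ∀ z ∈ L.Z0,
      z ∈ Subgroup.closure ((L.X (L.R.α i) ∪ L.X (-L.R.α i)) ∩ V) → z ∈ D) (a : Mm L i u m) :
    ∀ᶠ u' in 𝓝 u, ∀ m', Mm L i u' m' → m'⁻¹ * m ∈ D := by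
  have H := T.lp.ok
  obtain ⟨y, hy, -⟩ := exists_y H
  obtain ⟨x, x0, x1⟩ := NormedField.exists_norm_lt_one k
  obtain ⟨v, b, c⟩ := mm_key H a
  obtain ⟨n, h1, h2⟩ := ((ctr_lim T (y := -y) (π := Units.mk0 x (norm_pos_iff.1 x0))
    (fun μ (e : μ < 0) => by simpa using hy _ (neg_pos.2 e)) x1 (X_Um H b)).eventually
      ((T.cell V hV).eventually_nhds.and hV)).exists
  have s := H.τ_mem_Z0 (-y) (Units.mk0 x (norm_pos_iff.1 x0) ^ n)
  have s' := fun z => H.τ_comm0 (g := z) (-y) (Units.mk0 x (norm_pos_iff.1 x0) ^ n)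
  generalize L.τ _ _ = s0 at h1 h2 s s'
  filter_upwards [(Continuous.tendsto' (f := fun u' => s0 * (u'⁻¹ * u * v) * s0⁻¹) (by fun_prop) u _
    (by simp)).eventually h1, (Continuous.tendsto' (f := fun u' => s0 * (u'⁻¹ * u) * s0⁻¹)
      (by fun_prop) u _ (by simp)).eventually hV] with u' ⟨v1, d1, z1, d2, u1, d3, e1, e2, e3, e⟩
      f m' g
  obtain ⟨p, hp, q, hq, r⟩ := c u' m' g
  have z := (g.2.2.1.div a.2.2.1).2
  obtain ⟨rfl, rfl, rfl⟩ := H.cell_uniq (X_Um H (Z0_conj_UD s hp)) d1 z d2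
    (X_Up H (Z0_conj_UD s hq)) d3 (by
      rw [← e, r, mul_assoc p, mul_assoc _ (m'⁻¹ * m), ← mul_assoc (m'⁻¹ * m), ← mul_assoc (m'⁻¹ * m),
        ← s' _ z]
      group)
  refine hD _ z ?_
  rw [show m'⁻¹ * m = (s0 * p * s0⁻¹)⁻¹ * (s0 * (u'⁻¹ * u) * s0⁻¹) * (s0 * v * s0⁻¹) *
    (s0 * q * s0⁻¹)⁻¹ by
      rw [eq_mul_inv_iff_mul_eq, mul_assoc (s0 * p * s0⁻¹)⁻¹, eq_inv_mul_iff_mul_eq, ← mul_assoc,
        ← e]
      group]
  exact mul_mem (mul_mem (mul_mem (inv_mem (Subgroup.subset_closure ⟨Or.inr (Z0_conj_UD s hp), e1⟩))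
    (Subgroup.subset_closure ⟨Or.inl (Z0_conj_UD s (mul_mem (inv_mem g.1) a.1)), f⟩))
    (Subgroup.subset_closure ⟨Or.inr (Z0_conj_UD s b), h2⟩))
    (inv_mem (Subgroup.subset_closure ⟨Or.inl (Z0_conj_UD s hq), e3⟩))

theorem fin_m {D : Subgroup G} (hπ : ‖(π : k)‖ < 1) (hD : ∀ u m, Mm L i u m →
    ∀ᶠ u' in 𝓝 u, ∀ m', Mm L i u' m' → m'⁻¹ * m ∈ D) : ∃ F : Set G, F.Finite ∧
      ∀ u m, Mm L i u m → ∃ f ∈ F, ∃ y, f⁻¹ * m * L.τ y π ∈ D := by
  have H := T.lp.ok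
  obtain ⟨y, hy, -⟩ := exists_y H
  have hΩ : IsCompact {u | u ∈ KK L 0 ∧ u ∈ L.X (L.R.α i) ∧ (L.τ y π)⁻¹ * u * L.τ y π ∉ KK L 0} :=
    (KK_cpt T 0).inter_right ((UD_closed T _).inter
      ((KK_open T 0).isClosed_compl.preimage (f := fun u => (L.τ y π)⁻¹ * u * L.τ y π) (by fun_prop)))
  obtain ⟨F, h1, h2⟩ := hΩ.induction_on (p := fun s => ∃ F : Set G, F.Finite ∧ ∀ u ∈ s, ∀ m,
    Mm L i u m → ∃ f ∈ F, f⁻¹ * m ∈ D) ⟨∅, Set.finite_empty, fun _ a => a.elim⟩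
    (fun _ _ e ⟨F, a, b⟩ => ⟨F, a, fun u c => b u (e c)⟩)
    (fun _ _ ⟨F, a, b⟩ ⟨F', a', b'⟩ => ⟨_, a.union a', fun u c m d => c.elim
      (fun c => (b u c m d).imp fun _ e => ⟨Or.inl e.1, e.2⟩)
      fun c => (b' u c m d).imp fun _ e => ⟨Or.inr e.1, e.2⟩⟩) fun u a => by
      obtain ⟨m, b⟩ := mm_ex H a.2.1 fun e => a.2.2 (by simp [e])
      exact ⟨_, mem_nhdsWithin_of_mem_nhds (hD u m b), {m}, Set.finite_singleton m,
        fun u' c m' d => ⟨m, rfl, by simpa using inv_mem (c m' d)⟩⟩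
  refine ⟨F, h1, fun u m a => ?_⟩
  obtain ⟨j, b, c⟩ := cover T hy hπ (X_Up H a.1) a.2.1
  have d := a.conj (H.τ_mem_Z0 y (π ^ j))
  obtain ⟨f, e, g⟩ := h2 _ ⟨b, d.1, c⟩ _ d
  obtain ⟨y', r⟩ := conj_τ H (inv_mem (N0_le a.mem)) (j • y) π
  refine ⟨f, e, y' + -(j • y), ?_⟩
  rw [H.τ_add, H.τ_neg, ← r, H.τ_zsmul]
  rw [H.τ_zpow] at g
  simpa [mul_assoc] using g

/-- **Closedness.** -/
theorem closed_of (hf : ∀ u ∈ L.Up, IsOfFinOrder u) : IsClosed (L.Gp : Set G) := by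
  have H := T.lp.ok
  have := T.cl.isEmbedding.t2Space
  have := H.normal_Gp
  obtain ⟨x, x0, x1⟩ := NormedField.exists_norm_lt_one k
  let P := L.Gp.topologicalClosure ⊓ KK L 1
  let Q := ⁅P, P⁆.topologicalClosure
  have q0 : IsClosed (Q : Set G) := Subgroup.isClosed_topologicalClosure _
  have q1 : Q ≤ KK L 1 := Subgroup.topologicalClosure_minimal _
    (Subgroup.commutator_le.2 fun g a h b => KK_anti one_le_two (KK_comm a.2 b.2))
    (Subgroup.isClosed_of_isOpen _ (KK_open T 1))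
  have q2 : ∀ᶠ u in 𝓝 1, u ∈ L.Up ∨ u ∈ L.Um → u ∈ Q := (a1' T (A := P) (mem_of_superset
    (KK_nhds T 1) fun g a b => ⟨Subgroup.le_topologicalClosure _ b, a⟩)).mono fun u a b =>
      Subgroup.le_topologicalClosure _ (a b)
  have q3 : DD L Q ≤ Q := fun g a => by simpa using (mem_DD.1 a).2 1 (one_mem _)
  obtain ⟨V, hV, q4⟩ := DD_mem T q2
  have q5 : ((DD L Q).subgroupOf (L.Gp ⊓ L.Z0 ⊓ KK L 1)).FiniteIndex :=
    ⟨fin_T H hf (Units.mk0 x (norm_pos_iff.1 x0)) inf_le_left (fun n a d b => by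
      obtain ⟨w, -, c⟩ := id a
      exact mem_DD.2 ⟨c.conj_Z0 b.1, fun n' a' => by
        simpa [mul_assoc] using (mem_DD.1 b).2 _ (mul_mem a' a)⟩)
      (fun i => fin_m T x1 fun u m => loc_const T hV (q4 i)) inf_le_left fun g a y b => by
        rwa [τ_eq_one H x1 ((Subgroup.mul_mem_cancel_left _ a.2).1 (q1 (q3 b))), mul_one] at b⟩
  have q6 : IsClosed (DD L Q : Set G) := by
    simp only [DD, Subgroup.coe_inf, Subgroup.coe_iInf]
    exact (Z0_closed T).inter (isClosed_iInter fun n => isClosed_iInter fun _ =>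
      q0.preimage (f := fun g => n * g * n⁻¹) (by fun_prop))
  obtain ⟨W, hW, q7⟩ := (mem_nhds_induced _ _ _).1
    ((Subgroup.isOpen_of_isClosed_of_finiteIndex ((DD L Q).subgroupOf (L.Gp ⊓ L.Z0 ⊓ KK L 1))
      (q6.preimage continuous_subtype_val)).mem_nhds (one_mem _))
  have q8 : ∀ᶠ g in 𝓝 1, g ∈ L.Gp → g ∈ Q := by
    filter_upwards [T.cell _ (inter_mem q2 (inter_mem (KK_nhds T 1) hW))] with g
      ⟨v, a, z, b, u, c, d, e, f, r⟩ s
    exact r ▸ mul_mem (mul_mem (d.1 (Or.inr a)) (q3 (@q7 ⟨z, ⟨(Subgroup.mul_mem_cancel_left _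
      (Um_le_Gp a)).1 ((Subgroup.mul_mem_cancel_right _ (Up_le_Gp c)).1 (r ▸ s)), b⟩, e.2.1⟩
      e.2.2))) (f.1 (Or.inl c))
  have q9 : ∀ᶠ g in 𝓝 1, g ∈ L.Gp.topologicalClosure → g ∈ Q := q8.eventually_nhds.mono
    fun g a b => q0.closure_subset (mem_closure_iff_frequently.2
      (((mem_closure_iff_frequently.1 b).and_eventually a).mono fun _ c => c.2 c.1))
  have : CompactSpace P := isCompact_iff_compactSpace.1
    ((KK_cpt T 1).inter_left (Subgroup.isClosed_topologicalClosure _))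
  have r1 : Q.subgroupOf P ≤ (_root_.commutator P).topologicalClosure := fun g a => by
    show g ∈ closure _
    rw [IsInducing.subtypeVal.closure_eq_preimage_closure_image]
    exact (congrArg (fun A : Subgroup G => g.1 ∈ closure (A : Set G))
      P.map_subtype_commutator).mpr a
  have r2 := r1.trans (comm_le (P := P) (fun U hU => ?_) (L.Gp.subgroupOf P)
    (Subtype.dense_iff.2 fun g a => closure_mono (fun h b => ?_)
      ((KK_open T 1).inter_closure ⟨a.2, a.1⟩)) (Subgroup.isOpen_of_mem_nhds _ (g := 1)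
      (mem_of_superset (continuous_subtype_val.continuousAt q9) fun g a => r1 (a g.2.1))))
  · refine isClosed_of_closure_subset fun g a => ?_
    obtain ⟨h, b, c⟩ := mem_closure_iff_nhds.1 a _ ((Continuous.tendsto'
      (f := fun h => h⁻¹ * g) (by fun_prop) g 1 (by simp)).eventually (q9.and (KK_nhds T 1)))
    have d : h⁻¹ * g ∈ L.Gp.topologicalClosure :=
      mul_mem (inv_mem (Subgroup.le_topologicalClosure _ c)) a
    exact (Subgroup.mul_mem_cancel_left _ (inv_mem c)).1 (@r2 ⟨_, d, b.2⟩ (b.1 d))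
  · obtain ⟨U, hU, e⟩ := (mem_nhds_induced _ _ _).1 hU
    obtain ⟨j, hj⟩ := KK_basis T hU
    refine ⟨(KK L j).subgroupOf P, ⟨fun g a h => ?_⟩, (KK_open T j).preimage continuous_subtype_val,
      fun g a => e (hj a), j, fun g a => KK_anti j.le_succ ?_⟩
    · simpa [commutatorElement_def, Subgroup.mem_subgroupOf] using
        mul_mem (KK_anti (Nat.le_add_left j 1) (KK_comm h.2.2 a)) a
    · clear hj
      induction j generalizing g with
      | zero => exact g.2.2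
      | succ j ih =>
        exact Subgroup.commutator_le.2 (fun g a h _ => show ⁅g, h⁆ ∈
          (KK L (j + 1 + 1)).subgroupOf P from KK_comm (ih g a) h.2.2) a
  · exact ⟨⟨h, Subgroup.le_topologicalClosure _ b.2, b.1⟩, b.2, rfl⟩

end Vale.Agent.P092CQ
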