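import Vale.Agent.P092A2.Zmt

/-!
P092, group side: the theorem of Kolchin, semisimple powers in positive characteristic.
-/

set_option linter.all false

open Module Polynomial

namespace Vale.Agent.P092CQ

section kol

variable {K Γ : Type} [Field K] [IsAlgClosed K] [Group Γ]

/-- an irreducible unipotent representation is trivial -/
theorem kol_irr {V : Type} [AddCommGroup V] [Module K V] [FiniteDimensional K V]
    (ρ : Representation K Γ V) (hu : ∀ g, IsNilpotent (ρ g - 1))
    (h : ∀ W : Submodule K V, (∀ g, W ≤ W.comap (ρ g)) → W = ⊥ ∨ W = ⊤) (g : Γ) : ρ g = 1 := by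
  rcases subsingleton_or_nontrivial V with h0 | h0
  · exact Subsingleton.elim _ _
  have h1 := congrArg Subalgebra.toSubmodule (P092A2.burnside (Algebra.adjoin K (Set.range ρ))
    fun W hW => h W fun z => hW _ (Algebra.subset_adjoin ⟨z, rfl⟩))
  rw [Algebra.adjoin_eq_span, ← MonoidHom.coe_mrange, Submonoid.closure_eq,
    MonoidHom.coe_mrange] at h1
  have t : ∀ g, LinearMap.trace K V (ρ g) = LinearMap.trace K V 1 := fun g => by
    rw [← sub_eq_zero, ← map_sub]
    exact (LinearMap.isNilpotent_trace_of_isNilpotent (hu g)).eq_zero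
  have h2 : ∀ f ∈ Submodule.span K (Set.range ρ), LinearMap.trace K V ((ρ g - 1) * f) = 0 :=
    fun f hf => by
      induction hf using Submodule.span_induction with
      | mem x hx =>
        obtain ⟨a, rfl⟩ := hx
        rw [sub_mul, one_mul, map_sub, ← map_mul, t, t, sub_self]
      | zero => simp
      | add x y _ _ a b => rw [mul_add, map_add, a, b, add_zero]
      | smul c x _ a => rw [mul_smul_comm, map_smul, a, smul_zero]
  refine sub_eq_zero.1 (LinearMap.ext fun v => (forall_dual_apply_eq_zero_iff K _).1 fun φ => ?_)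
  rw [← LinearMap.trace_smulRight, ← h2 (φ.smulRight v) (h1.ge trivial)]
  congr 1
  ext
  simp

/-- the theorem of Kolchin -/
theorem kol {V : Type} [AddCommGroup V] [Module K V] [FiniteDimensional K V]
    (ρ : Representation K Γ V) (hu : ∀ g, IsNilpotent (ρ g - 1)) :
    ∃ N, ∀ g ∈ derivedSeries Γ N, ρ g = 1 := by
  generalize hd : finrank K V = d
  induction d using Nat.strong_induction_on generalizing V with
  | _ d ih =>
  by_cases h : ∀ W : Submodule K V, (∀ g, W ≤ W.comap (ρ g)) → W = ⊥ ∨ W = ⊤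
  · exact ⟨0, fun g _ => kol_irr ρ hu h g⟩
  push Not at h
  obtain ⟨W, hW, h0, h1⟩ := h
  have l : ∀ g, W ≤ W.comap (ρ g - 1) := fun g v hv => W.sub_mem (hW g hv) hv
  obtain ⟨a, ha⟩ := ih _ (hd ▸ Submodule.finrank_lt h1) (ρ.subrepresentation W hW)
    (fun g => (congrArg IsNilpotent (by ext; rfl)).mp (End.isNilpotent.restrict (l g) (hu g))) rfl
  obtain ⟨b, hb⟩ := ih _ (by
      have := W.finrank_quotient_add_finrank
      have := Submodule.finrank_eq_zero.not.2 h0
      omega) (ρ.quotient W hW) (fun g =>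
    (congrArg IsNilpotent (by ext; simp)).mp (End.IsNilpotent.mapQ (l g) (hu g))) rfl
  have e : ∀ x ∈ derivedSeries Γ (a + b), ∀ y ∈ derivedSeries Γ (a + b),
      ρ (x * y) = ρ x + ρ y - 1 := fun x hx y hy => LinearMap.ext fun v => by
    have h2 := LinearMap.congr_fun (hb y (derivedSeries_antitone Γ (by omega) hy)) (W.mkQ v)
    have h3 := LinearMap.congr_fun (ha x (derivedSeries_antitone Γ (by omega) hx))
      ⟨_, (Submodule.Quotient.eq W).1 h2⟩
    have h4 : ρ x (ρ y v - v) = ρ y v - v := congrArg Subtype.val h3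
    rw [map_sub, sub_eq_iff_eq_add] at h4
    rw [map_mul, End.mul_apply, h4]
    simp only [LinearMap.sub_apply, LinearMap.add_apply, End.one_apply]
    abel
  refine ⟨a + b + 1, fun g hg => (Subgroup.commutator_le.2 fun x hx y hy => ?_ :
    _ ≤ MonoidHom.ker ρ) hg⟩
  rw [MonoidHom.mem_ker, commutatorElement_def, mul_assoc, ← mul_inv_rev, map_mul, e x hx y hy,
    add_comm, ← e y hy x hx, ← map_mul, mul_inv_cancel, map_one]

/-- a linear group in which every element has a central power of order a power of the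
characteristic is solvable -/
theorem solv_alg {A : Type} [Ring A] [Algebra K A] [FiniteDimensional K A] (p : ℕ) [ExpChar K p]
    (ι : Γ →* Aˣ) (hι : Function.Injective ι) (h : ∀ c : Γ, ∃ m, ∀ d, Commute (c ^ p ^ m) d) :
    Group.IsSolvable Γ := by
  let V := Submodule.span K (Set.range fun c => (ι c : A))
  let σ : Representation K Γ A :=
    { toFun := fun g => LinearMap.mulLeftRight K ((ι g : A), (ι g⁻¹ : A))
      map_one' := by ext1 x; simp
      map_mul' := fun a b => by ext1 x; simp [mul_assoc] }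
  have e : ∀ g c, σ g (ι c : A) = ι (g * c * g⁻¹) := fun g c => by simp [σ]
  have l : ∀ g, V ≤ V.comap (σ g) := fun g => Submodule.span_le.2 <| by
    rintro _ ⟨c, rfl⟩
    exact Submodule.subset_span ⟨_, (e g c).symm⟩
  obtain ⟨N, hN⟩ := kol (σ.subrepresentation V l) fun g => by
    obtain ⟨m, hm⟩ := h g
    have := congrArg (aeval (σ.subrepresentation V l g)) (sub_pow_expChar_pow (X : K[X]) 1 (p := p) m)
    simp only [map_pow, map_sub, aeval_X, map_one, one_pow] at this
    refine ⟨_, this.trans (sub_eq_zero.2 ?_)⟩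
    rw [← map_pow]
    refine LinearMap.ext fun v => Subtype.ext (LinearMap.eqOn_span (f := σ (g ^ p ^ m))
      (g := LinearMap.id) ?_ v.2)
    rintro _ ⟨c, rfl⟩
    rw [e, (hm c).eq, mul_inv_cancel_right]
    rfl
  refine ⟨N + 1, le_bot_iff.1 (Subgroup.commutator_le.2 fun x hx y _ => ?_)⟩
  have := congrArg Subtype.val (LinearMap.congr_fun (hN x hx)
    ⟨_, Submodule.subset_span ⟨y, rfl⟩⟩)
  rw [Subgroup.mem_bot, commutatorElement_def, hι (Units.ext ((e x y).symm.trans this)),
    mul_inv_cancel]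

end kol

/-- the same over any field -/
theorem solv_of_pow {k : Type} [Field k] (p : ℕ) [ExpChar k p] {n : ℕ}
    (C : Subgroup (GL (Fin n) k)) (h : ∀ c ∈ C, ∃ m, ∀ d ∈ C, Commute (c ^ p ^ m) d) :
    Group.IsSolvable C :=
  have := expChar_of_injective_algebraMap (algebraMap k (AlgebraicClosure k)).injective p
  solv_alg (K := AlgebraicClosure k) p ((Matrix.GeneralLinearGroup.map
    (algebraMap k (AlgebraicClosure k))).comp C.subtype) (fun a b e => Subtype.ext <| Units.ext <|
      Matrix.map_injective (algebraMap k (AlgebraicClosure k)).injective (congrArg Units.val e))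
    fun c => (h c c.2).imp fun m a d => Subtype.ext (a d d.2).eq

/-- in positive characteristic some power of an endomorphism is semisimple -/
theorem exists_ss {k V : Type} [Field k] (p : ℕ) [Fact p.Prime] [CharP k p] [AddCommGroup V]
    [Module k V] [FiniteDimensional k V] (f : End k V) : ∃ m, (f ^ p ^ m).IsSemisimple := by
  obtain ⟨_, ⟨m, rfl⟩, hm⟩ := wellFounded_lt.has_min
    (Set.range fun m => (Algebra.adjoin k {f ^ p ^ m}).toSubmodule) (Set.range_nonempty _)
  have h1 : Algebra.adjoin k {(f ^ p ^ m) ^ p} ≤ Algebra.adjoin k {f ^ p ^ m} :=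
    Algebra.adjoin_le (Set.singleton_subset_iff.2 (pow_mem (Algebra.self_mem_adjoin_singleton k _) _))
  have h2 : f ^ p ^ m ∈ Algebra.adjoin k {(f ^ p ^ m) ^ p} :=
    (eq_of_le_of_not_lt (a := (Algebra.adjoin k {(f ^ p ^ m) ^ p}).toSubmodule) h1
      (hm _ ⟨m + 1, by simp only [pow_succ, pow_mul]⟩)).ge (Algebra.self_mem_adjoin_singleton k _)
  rw [Algebra.adjoin_singleton_eq_range_aeval] at h2
  obtain ⟨P, hP⟩ := h2
  refine ⟨m, End.isSemisimple_of_squarefree_aeval_eq_zero (p := X - expand k p P)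
    (Separable.squarefree ?_) ?_⟩
  · rw [separable_def, derivative_sub, derivative_X, derivative_expand, ← C_eq_natCast,
      CharP.cast_eq_zero]
    simp [isCoprime_one_right]
  · rw [map_sub, aeval_X, expand_aeval]
    exact sub_eq_zero.2 hP.symm

/-- an invariant subspace of a semisimple endomorphism -/
theorem ss_proj {k V : Type} [Field k] [AddCommGroup V] [Module k V] {f : End k V}
    (hf : f.IsSemisimple) {W : Submodule k V} (hW : ∀ x ∈ W, f x ∈ W) :
    (∃ π : End k V, (∀ x, π x ∈ W) ∧ (∀ x ∈ W, π x = x) ∧ ∀ x, π (f x) = f (π x)) ∧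
      W ≤ W ⊓ LinearMap.ker (f - 1) ⊔ W.map (f - 1) := by
  have l : W.map (f - 1) ≤ W := by
    rintro _ ⟨x, hx, rfl⟩
    exact W.sub_mem (hW x hx) hx
  constructor
  · obtain ⟨q, h1, h2⟩ := End.isSemisimple_iff.1 hf W hW
    refine ⟨W.projection q h2, fun x => (W.projectionOnto q h2 x).2,
      fun x hx => Submodule.projection_apply_of_mem_left h2 hx, fun x => ?_⟩
    obtain ⟨a, ha, b, hb, rfl⟩ := Submodule.mem_sup.1 (h2.sup_eq_top.ge (trivial : x ∈ ⊤))
    simp only [map_add, Submodule.projection_apply_of_mem_left h2 ha,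
      Submodule.projection_apply_of_mem_left h2 (hW a ha),
      Submodule.projection_apply_of_mem_right h2 hb,
      Submodule.projection_apply_of_mem_right h2 (h1 hb), map_zero]
  · obtain ⟨q, h1, h2⟩ := End.isSemisimple_iff.1 hf (W.map (f - 1)) (by
      rintro _ ⟨x, hx, rfl⟩
      exact ⟨f x, hW x hx, by simp⟩)
    intro x hx
    obtain ⟨a, ha, b, hb, rfl⟩ := Submodule.mem_sup.1 (h2.sup_eq_top.ge (trivial : x ∈ ⊤))
    have hb2 := (W.add_mem_iff_right (l ha)).1 hx
    exact add_comm a b ▸ Submodule.add_mem_sup ⟨hb2, Submodule.disjoint_def.1 h2.disjoint _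
      ⟨b, hb2, rfl⟩ (q.sub_mem (h1 hb) hb)⟩ ha

end Vale.Agent.P092CQ
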