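import Vale.Agent.P092CQ.Tan
import Vale.Agent.P092CQ.Kol
import Vale.Agent.P092AG.Basic

/-!
P092, group side: the quotient by an infinite normal subgroup in positive characteristic.
-/

set_option linter.all false

open Matrix Filter Topology
open scoped Matrix.Norms.Elementwise

namespace Vale.Agent.P092CQ

open Vale.Agent.P092AG

variable {n : ℕ} {k : Type} [NontriviallyNormedField k] {G H : Subgroup (GL (Fin n) k)}
  {𝔤 𝔥 : Submodule k (Mt n k)}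

theorem ev_gl {P : GL (Fin n) k → Prop} : (∀ᶠ g in 𝓝 (1 : GL (Fin n) k), P g) ↔
    ∀ᶠ x in 𝓝 (1 : Mt n k), ∀ g : GL (Fin n) k, (g : Mt n k) = x → P g := by
  rw [emb_val.isInducing.nhds_eq_comap, eventually_comap]
  rfl

theorem ev_mem : (∀ᶠ g in 𝓝 (1 : GL (Fin n) k), g ∈ G → g ∈ H) ↔
    ∀ᶠ x in 𝓝 (1 : Mt n k), Mem G x → Mem H x :=
  ev_gl.trans (eventually_congr (.of_forall fun x => ⟨fun a ⟨g, b, c⟩ => ⟨g, a g c b, c⟩,
    fun a g c b => mem_coe.1 (c ▸ a ⟨g, b, c⟩)⟩))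

theorem chart_loc (h : Chart G 𝔤) (hH : H ≤ G) (ho : ∀ᶠ x in 𝓝 (1 : Mt n k), Mem G x → Mem H x) :
    Chart H 𝔤 :=
  h.imp fun _ a => ⟨a.1, a.2.1, a.2.2.1, (a.2.2.2.and ho).mono fun _ b =>
    Iff.trans ⟨mem_mono hH, b.2⟩ b.1⟩

/-- `H` is normalised by a neighbourhood of `1` in `G` -/
def LN (G H : Subgroup (GL (Fin n) k)) : Prop :=
  ∀ᶠ g in 𝓝 (1 : GL (Fin n) k), g ∈ G → ∀ x ∈ H, g * x * g⁻¹ ∈ H

theorem LN.ev (h : LN G H) : ∀ᶠ x in 𝓝 (1 : Mt n k), Mem G x →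
    Mem (G ⊓ Subgroup.normalizer (H : Set (GL (Fin n) k))) x := by
  have c : Tendsto (fun g : GL (Fin n) k => g⁻¹) (𝓝 1) (𝓝 1) := continuous_inv.tendsto' _ _ inv_one
  refine ev_mem.1 ((h.and (c.eventually h)).mono fun g a b =>
    ⟨b, Subgroup.mem_normalizer_iff.2 fun x => ⟨a.1 b x, fun e => ?_⟩⟩)
  simpa [mul_assoc] using a.2 (G.inv_mem b) _ e

theorem pf_lin (φ : Mt n k →ₗ[k] k) : PF φ := by
  have : (φ : Mt n k → k) = fun x => ∑ i, ∑ j, x i j * φ (single i j 1) := funext fun x => by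
    conv_lhs => rw [matrix_eq_sum_single x]
    simp only [map_sum]
    refine Finset.sum_congr rfl fun i _ => Finset.sum_congr rfl fun j _ => ?_
    rw [← smul_eq_mul, ← map_smul, smul_single, smul_eq_mul, mul_one]
  rw [this]
  exact PF.sum _ fun i _ => PF.sum _ fun j _ => (PF.entry i j).mul (PF.const _)

theorem inv_adj {g : GL (Fin n) k} (h : (g : Mt n k).det = 1) :
    ((g⁻¹ : GL (Fin n) k) : Mt n k) = adjugate (g : Mt n k) := by
  rw [Matrix.coe_units_inv, Matrix.inv_def, h, Ring.inverse_one, one_smul]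

/-- the condition that `Ad g X - Y` lies in a subspace passes to the Zariski closure -/
theorem ad_zar (h1 : ∀ g ∈ G, (g : Mt n k).det = 1) (hH : H ≤ G)
    (hv : van (H : Set (GL (Fin n) k)) ≤ van (G : Set (GL (Fin n) k))) {X Y : Mt n k}
    (h : ∀ c ∈ H, Ad c X - Y ∈ 𝔥) {c : GL (Fin n) k} (hc : c ∈ G) : Ad c X - Y ∈ 𝔥 := by
  refine (Subspace.forall_mem_dualAnnihilator_apply_eq_zero_iff 𝔥 _).1 fun φ hφ => ?_
  obtain ⟨p, hp⟩ := (pf_lin φ).comp (T := fun x => x * X * adjugate x - Y) fun i j =>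
    (PF.mulE (S := fun x => x * X) (T := adjugate) (PF.mulE (S := fun x => x) (T := fun _ => X)
      PF.entry fun _ _ => PF.const _) PF.adj i j).sub (PF.const (Y i j))
  have e : ∀ g ∈ G, φ (Ad g X - Y) = ev (g : Mt n k) p := fun g a => by
    rw [Ad_apply, inv_adj (h1 g a)]
    exact hp _
  exact (e c hc).trans (mem_van.1 (hv (mem_van.2 fun g hg => (e g (hH hg)).symm.trans
    ((Submodule.mem_dualAnnihilator φ).1 hφ _ (h g hg)))) c hc)

variable [CompleteSpace k]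

/-- the group acts trivially on the quotient of the tangent spaces -/
theorem ad_sub (hN : Nice G 𝔤) (hS : Simp G) (hH : H ≤ G) (hl : LN G H)
    (hi : (H : Set (GL (Fin n) k)).Infinite) {c : GL (Fin n) k} (hc : c ∈ G) {X : Mt n k}
    (hX : X ∈ 𝔤) : Ad c X - X ∈ Tn H := by
  refine ad_zar hN.det1 hH ((hS.norm H hH hl).resolve_left hi) (fun u hu => Tn_comm (fun x a => ?_)
    ((Tn_eq (chart_loc hN.chart inf_le_left hl.ev)).ge hX)) hc
  rw [mul_assoc, mul_assoc, ← mul_assoc x]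
  exact H.mul_mem hu ((Subgroup.mem_normalizer_iff.1 a.2 _).1 (H.inv_mem hu))

theorem descent (p : ℕ) [Fact p.Prime] [CharP k p] (h : Chart G 𝔤)
    (hh : ∀ c ∈ G, ∀ X ∈ 𝔤, Ad c X - X ∈ 𝔥) : ∃ C ≤ G, ∃ 𝔠, Chart C 𝔠 ∧ 𝔤 ≤ 𝔠 ⊔ 𝔥 ∧
      ∀ c ∈ C, ∃ m, ∀ᶠ x in 𝓝 (1 : Mt n k), Mem C x → Mem (Subgroup.centralizer {c ^ p ^ m}) x := by
  obtain ⟨𝔠, ⟨h1, h2, C, h3, h4⟩, hm⟩ := wellFounded_lt.has_min
    {𝔠 | 𝔠 ≤ 𝔤 ∧ 𝔤 ≤ 𝔠 ⊔ 𝔥 ∧ ∃ C ≤ G, Chart C 𝔠} ⟨𝔤, le_rfl, le_sup_left, G, le_rfl, h⟩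
  refine ⟨C, h3, 𝔠, h4, h2, fun c hc => (exists_ss p (Ad c)).imp fun m hs => ?_⟩
  rw [← map_pow] at hs
  have hq := C.pow_mem hc (p ^ m)
  obtain ⟨⟨π, p1, p2, p3⟩, p4⟩ := ss_proj hs fun x => Ad_mem h4 hq
  have h5 := chart_cen h4 hq π p1 p2 p3
  rw [eq_of_le_of_not_lt inf_le_left (hm _ ⟨inf_le_left.trans h1, h2.trans (sup_le (p4.trans
    (sup_le_sup_left ?_ _)) le_sup_right), _, inf_le_left.trans h3, h5⟩)] at h5
  · exact (open_of_Tn h4 inf_le_left (Tn_eq h5).ge).mono fun x a b => mem_mono inf_le_right (a b)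
  · rintro _ ⟨x, hx, rfl⟩
    exact hh _ (h3 hq) x (h1 hx)

omit [CompleteSpace k] in
/-- a neighbourhood that commutes with everything that commutes with some neighbourhood -/
theorem exists_nhd (C : Subgroup (GL (Fin n) k)) : ∃ D ≤ C,
    (∀ᶠ x in 𝓝 (1 : Mt n k), Mem C x → Mem D x) ∧ ∀ c, (∀ᶠ x in 𝓝 (1 : Mt n k), Mem C x →
      Mem (Subgroup.centralizer {c}) x) → ∀ d ∈ D, Commute c d := by
  obtain ⟨_, ⟨U, h1, rfl⟩, hm⟩ := wellFounded_lt.has_min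
    ((fun U => Submodule.span k (U ∩ {x | Mem C x})) '' {U | U ∈ 𝓝 (1 : Mt n k)})
    ⟨_, _, univ_mem, rfl⟩
  refine ⟨Subgroup.closure {g | g ∈ C ∧ (g : Mt n k) ∈ U}, (Subgroup.closure_le _).2 fun g a => a.1,
    mem_of_superset h1 fun x a ⟨g, b, c⟩ => ⟨g, Subgroup.subset_closure ⟨b, c ▸ a⟩, c⟩,
    fun c hc d hd => ((Subgroup.closure_le (Subgroup.centralizer {c})).2 (fun g a => ?_) hd c rfl)⟩
  have e := eq_of_le_of_not_lt (Submodule.span_mono (Set.inter_subset_inter_left _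
    Set.inter_subset_left)) (hm _ ⟨_, inter_mem h1 hc, rfl⟩)
  rintro c rfl
  refine Units.ext (LinearMap.eqOn_span (f := LinearMap.mulLeft k (c : Mt n k))
    (g := LinearMap.mulRight k (c : Mt n k)) ?_ (e.ge (Submodule.subset_span ⟨a.2, g, a.1, rfl⟩)))
  rintro x ⟨⟨-, b⟩, b2⟩
  obtain ⟨u, u1, rfl⟩ := b b2
  exact congrArg Units.val (u1 _ rfl)

/-- **Cp.** In positive characteristic an infinite locally normal subgroup has a solvable local
supplement. -/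
theorem cp (p : ℕ) [Fact p.Prime] [CharP k p] (hN : Nice G 𝔤) (hS : Simp G) (hH : H ≤ G)
    (hl : LN G H) (hi : (H : Set (GL (Fin n) k)).Infinite) :
    ∃ C ≤ G, C ≤ Subgroup.normalizer (H : Set (GL (Fin n) k)) ∧ Group.IsSolvable C ∧
      ∀ᶠ g in 𝓝 (1 : GL (Fin n) k), g ∈ G → ∃ h ∈ H, ∃ c ∈ C, g = h * c := by
  obtain ⟨C, h1, 𝔠, h2, h3, h4⟩ := descent p (chart_loc hN.chart inf_le_left hl.ev)
    fun c hc X => ad_sub hN hS hH hl hi hc.1
  obtain ⟨D, d1, d2, d3⟩ := exists_nhd C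
  have d4 := d1.trans h1
  refine ⟨D, d4.trans inf_le_left, d4.trans inf_le_right,
    solv_of_pow p D fun c hc => (h4 c (d1 hc)).imp fun m => d3 _,
    (ev_mem.2 (open_of_Tn (H := H ⊔ D) hN.chart (sup_le hH (d4.trans inf_le_left)) (h3.trans
      (sup_le ((Tn_eq (chart_loc h2 d1 d2)).ge.trans (Tn_mono le_sup_right))
        (Tn_mono le_sup_left))))).mono fun g a b => ?_⟩
  obtain ⟨x, hx, y, hy, e⟩ := (Subgroup.coe_mul_of_right_le_normalizer_left H D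
    (d4.trans inf_le_right)).le (a b)
  exact ⟨x, hx, y, hy, e.symm⟩

end Vale.Agent.P092CQ
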