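import Vale.Agent.P092CQ.Quo

/-!
P092, group side: the linear package of an absolutely simple group is almost simple.
-/

set_option linter.all false

open Filter Topology Vale.Agent.P092GP Vale.Agent.P092GP.LD Vale.Agent.P092AG

namespace Vale.Agent.P092CQ

variable {k : Type} [NontriviallyNormedField k] {n : ℕ} {G N : Subgroup (GL (Fin n) k)}
  {𝔤 : Submodule k (Mt n k)}

theorem comm_of_van (h : van (N : Set (GL (Fin n) k)) ≤ van (G : Set (GL (Fin n) k)))
    {g x : GL (Fin n) k} (e : ∀ u ∈ N, g * u = u * g) (a : x ∈ G) : g * x = x * g :=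
  Units.ext (Matrix.ext fun i j => by
    obtain ⟨p, hp⟩ := (PF.mulE (S := fun _ => (g : Mt n k)) (fun _ _ => PF.const _) PF.entry i j).sub
      (PF.mulE (T := fun _ => (g : Mt n k)) PF.entry (fun _ _ => PF.const _) i j)
    refine sub_eq_zero.1 ((hp _).trans (h (fun u b => (hp _).symm.trans ?_) x a))
    exact sub_eq_zero.2 (congrArg (fun y : GL (Fin n) k => (y : Mt n k) i j) (e u b)))

/-- **The literal case.** -/
theorem ls_of {L : LD k G} (hN : Nice G 𝔤) (hS : Simp G) (H : L.LP) (hr : 0 < L.R.r) : L.LS := by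
  have nm : ∀ A : Subgroup G, A.Normal → (A : Set G).Finite ∨
      van (A.map G.subtype : Set (GL (Fin n) k)) ≤ van (G : Set (GL (Fin n) k)) := fun A a =>
    (hS.norm _ (Subgroup.map_subtype_le A) (Eventually.of_forall fun g c _ ⟨x, b, e⟩ =>
      ⟨_, a.conj_mem x b ⟨g, c⟩, e ▸ rfl⟩)).imp_left fun c =>
        Set.Finite.of_finite_image c Subtype.val_injective.injOn
  have h1 : ∀ g : G, (∀ u ∈ L.Gp, g * u = u * g) → g ∈ Subgroup.center G := fun g a =>
    Subgroup.mem_center_iff.2 fun x => Subtype.ext (comm_of_van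
      ((nm _ H.ok.normal_Gp).resolve_left (by
        obtain ⟨j, -⟩ := H.ok.dg_simple ⟨0, hr⟩
        exact Set.infinite_of_injective_forall_mem (f := fun t : k => L.x (Pi.single j t))
          (fun t t' e => Pi.single_injective j (H.ok.x_inj e)) fun t => Up_le_Gp (H.ok.x_mem _)))
      (fun _ ⟨u, b, e⟩ => e ▸ congrArg Subtype.val (a u b)) x.2).symm
  refine ⟨H, (closed_quo hN hS H hr).1, ((nm (Subgroup.center G) inferInstance).resolve_right
    fun c => ?_).subset h1, h1, (closed_quo hN hS H hr).2⟩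
  obtain ⟨g, a, x, b, e⟩ := hS.ncomm
  exact e (comm_of_van c (fun _ ⟨u, d, e⟩ =>
    e ▸ congrArg Subtype.val (Subgroup.mem_center_iff.1 d ⟨g, a⟩)) b)

end Vale.Agent.P092CQ
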