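import Vale.Agent.P092GP.Top
import Vale.Agent.P092CQ.Cl
import Vale.Agent.P092CQ.Cp
import Vale.Agent.P092A2.C0
import Vale.Agent.P092A2.Pw
import Vale.Agent.P092.H759.TL.FG

/-!
P092, group side: `Gp` is closed and groups with property (T) have a finite image in `G / Gp`.
-/

set_option linter.all false

open Filter Topology Vale.Agent.P092GP Vale.Agent.P092GP.LD Vale.Agent.P092.UN

namespace Vale.Agent.P092CQ

section T

variable {Γ A : Type} [Group Γ] [Group A]

theorem no_hom (h : HasT Γ) (Δ : Subgroup Γ) [Δ.FiniteIndex] (χ : Δ →* Multiplicative ℤ)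
    (a : Δ) : χ a = 1 := by
  by_contra ha
  obtain ⟨Q, κ, hκ, h⟩ := h
  have := Δ.fintypeQuotientOfFiniteIndex
  let c : Γ → Γ ⧸ Δ → Δ := fun g x => ⟨x.out⁻¹ * (g * (g⁻¹ • x).out), QuotientGroup.eq.1 (by
    rw [QuotientGroup.out_eq', ← smul_eq_mul, MulAction.Quotient.mk_smul_out, smul_inv_smul])⟩
  let ω : ℝ → Δ → ℂ := fun t d => Complex.exp ((t * (χ d).toAdd : ℝ) * Complex.I)
  let σ : ℝ → Γ → EuclideanSpace ℂ (Γ ⧸ Δ) → EuclideanSpace ℂ (Γ ⧸ Δ) := fun t g f =>
    WithLp.toLp 2 fun x => ω t (c g x) * f (g⁻¹ • x)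
  let v : EuclideanSpace ℂ (Γ ⧸ Δ) := WithLp.toLp 2 fun _ => 1
  have h0 : 0 < κ * ‖v‖ := mul_pos hκ (norm_pos_iff.2 fun e => by
    simpa [v] using congrArg (fun f : EuclideanSpace ℂ (Γ ⧸ Δ) => f ((1 : Γ) : Γ ⧸ Δ)) e)
  have h1 : ∀ᶠ t in 𝓝 (0 : ℝ), ∀ g ∈ Q, ‖σ t g v - v‖ < κ * ‖v‖ :=
    (eventually_all_finset Q).2 fun g _ => (Continuous.tendsto' (f := fun t => ‖σ t g v - v‖)
      (((PiLp.continuous_toLp 2 _).comp (continuous_pi fun x => by fun_prop)).sub
        continuous_const).norm 0 0 (by simp [σ, ω, v])).eventually_lt_const h0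
  have h2 : ∀ᶠ t in 𝓝[≠] (0 : ℝ), ω t a ≠ 1 :=
    (((hasDerivAt_mul_const ((χ a).toAdd : ℝ)).ofReal_comp.mul_const Complex.I).cexp.eventually_ne
      (by simpa using ha) :)
  obtain ⟨t, t1, t2⟩ := (h2.and (h1.filter_mono nhdsWithin_le_nhds)).exists
  obtain ⟨g, b, e⟩ := h _ (σ t) (fun g => ⟨fun f f' => by ext; simp [σ, mul_add],
      fun z f => by ext; simp [σ, mul_left_comm]⟩) (fun g f => by
      simp only [EuclideanSpace.norm_eq, σ, ω, norm_mul, Complex.norm_exp_ofReal_mul_I, one_mul]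
      exact congrArg _ (Equiv.sum_comp (MulAction.toPerm g⁻¹) fun x => ‖f x‖ ^ 2))
    (fun f => by ext x; simp [σ, ω, show c 1 x = 1 from Subtype.ext (by simp [c])])
    (fun g g' f => by
      ext x
      simp [σ, ω, show c (g * g') x = c g x * c g' (g⁻¹ • x) from
        Subtype.ext (by simp [c, mul_smul, mul_assoc]), mul_add, add_mul, Complex.exp_add, mul_smul,
        mul_assoc])
    (fun f e => by
      ext x
      have e1 : (x.out * a * x.out⁻¹)⁻¹ • x = x := (MulAction.Quotient.mk_smul_out _ _ _).symm.trans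
        ((QuotientGroup.eq.2 (by simp [mul_assoc])).trans (QuotientGroup.out_eq' x))
      have e2 := congrArg (fun f : EuclideanSpace ℂ (Γ ⧸ Δ) => f x) (e (x.out * a * x.out⁻¹))
      simp only [σ, e1, show c (x.out * a * x.out⁻¹) x = a from Subtype.ext (by
        simp only [c, e1]; simp [mul_assoc])] at e2
      exact by_contra fun d => t1 ((mul_eq_right₀ d).1 e2))
    v
  exact (t2 g b).not_ge e

theorem fg_of_hasT (h : HasT Γ) : Group.FG Γ :=
  let ⟨Q, κ, a, h⟩ := h
  P092.H759.TL.fg_of_propT ⟨Q, κ, a, fun H _ _ _ σ b c => h H (fun g v => σ g v)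
    (fun g => ⟨map_add (σ g), map_smul (σ g)⟩) b (fun v => by rw [map_one]; rfl)
    (fun g g' v => by rw [map_mul]; rfl) c⟩

theorem fin_commutator (h : HasT Γ) (Δ : Subgroup Γ) [Δ.FiniteIndex] : ⁅Δ, Δ⁆.FiniteIndex := by
  have := fg_of_hasT h
  have : Group.FG (Abelianization Δ) := QuotientGroup.fg _
  have : Finite (Δ ⧸ _root_.commutator Δ) := fin_comm (A := Abelianization Δ) one_ne_zero
    fun χ a => by
      rw [pow_one]
      obtain ⟨a, rfl⟩ := QuotientGroup.mk_surjective a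
      exact no_hom h Δ (χ.comp Abelianization.of) a
  refine ⟨?_⟩
  rw [← Δ.map_subtype_commutator, Subgroup.index_map_subtype]
  exact mul_ne_zero Subgroup.finiteIndex_of_finite_quotient.index_ne_zero
    Subgroup.FiniteIndex.index_ne_zero

theorem fin_solv (h : HasT Γ) (f : Γ →* A) (B : Subgroup A) (hB : Group.IsSolvable B)
    (e : (B.comap f).FiniteIndex) : f.ker.FiniteIndex := by
  obtain ⟨n, hn⟩ := hB
  have : ∀ n, (((derivedSeries B n).map B.subtype).comap f).FiniteIndex := fun n => by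
    induction n with
    | zero => rwa [derivedSeries_zero, ← MonoidHom.range_eq_map, B.range_subtype]
    | succ n ih =>
      refine @Subgroup.finiteIndex_of_le _ _ _ _ (fin_commutator h
        (((derivedSeries B n).map B.subtype).comap f)) (Subgroup.map_le_iff_le_comap.1 ?_)
      rw [derivedSeries_succ, Subgroup.map_commutator, Subgroup.map_commutator]
      exact Subgroup.commutator_mono (Subgroup.map_comap_le _ _) (Subgroup.map_comap_le _ _)
  simpa [hn] using this n

end T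

variable {k G : Type} [NontriviallyNormedField k] [Group G] [TopologicalSpace G] {L : LD k G}

theorem tp_of (H : L.LP) : Tp L := by
  have := H.top
  refine ⟨H, H.cemb, fun V hV => ?_⟩
  have h0 := H.isOpen_Ω.mem_nhds (H.ok.B_sub_Ω (one_mem _))
  have h1 := (H.cont_lo.continuousAt h0).tendsto
  have h2 := (H.cont_up.continuousAt h0).tendsto
  rw [show L.lo 1 = 1 by simpa using H.ok.lo_eq (one_mem _) (one_mem _)] at h1
  rw [show L.up 1 = 1 by simpa using H.ok.up_eq (one_mem _) (one_mem _)] at h2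
  have h3 := (h1.inv.mul tendsto_id).mul h2.inv
  simp only [inv_one, mul_one] at h3
  filter_upwards [h0, h1.eventually hV, h2.eventually hV, h3.eventually hV] with g a b c d
  exact ⟨_, (H.ok.cell_spec a).1, _, (H.ok.cell_spec a).2.1, _, (H.ok.cell_spec a).2.2, b, d, c,
    by simp [mul_assoc]⟩

/-- **`Gp` is closed in positive characteristic.** -/
theorem closed_p (H : L.LP) (p : ℕ) [Fact p.Prime] [CharP k p] : IsClosed (L.Gp : Set G) :=
  have := H.top
  have := P092A2.ultra_of_charP (l := k) p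
  closed_of (tp_of H) (fin_order H.ok p)

/-- the quotient by `Gp` -/
theorem quo_of (H : L.LP) {C : Subgroup G} (hC : Group.IsSolvable C)
    (h : ∀ᶠ g in 𝓝 (1 : G), ∃ x ∈ L.Gp, ∃ c ∈ C, g = x * c) (Γ : Type) [Group Γ] (hT : HasT Γ)
    (f : Γ →* G) : (L.Gp.comap f).FiniteIndex := by
  have := H.top
  have := H.ok.normal_Gp
  let p := QuotientGroup.mk' L.Gp
  let q := (QuotientGroup.mk' (Subgroup.center (G ⧸ L.Gp))).comp p
  have p1 : ∀ x ∈ L.Gp, p x = 1 := fun x => (QuotientGroup.eq_one_iff x).2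
  have h1 : ∀ s ∈ L.S, q s = 1 := fun s a => (QuotientGroup.eq_one_iff _).2
    (Subgroup.mem_center_iff.2 fun g => by
      obtain ⟨g, rfl⟩ := QuotientGroup.mk'_surjective _ g
      obtain ⟨x, b, z, c, rfl⟩ := H.ok.exists_Gp g
      rw [map_mul, p1 x b, one_mul, ← map_mul, ← map_mul, H.ok.S_comm a c])
  have h2 : IsOpen ((C.map q).comap q : Set G) := Subgroup.isOpen_of_mem_nhds _ (h.mono (by
    rintro _ ⟨x, a, c, b, rfl⟩
    exact ⟨c, b, by simp [q, p1 x a]⟩))
  have h3 : ((C.map q).comap q).FiniteIndex := by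
    obtain ⟨K, k1, k2, k3⟩ := H.cpt
    have := QuotientGroup.discreteTopology h2
    have : Finite (G ⧸ (C.map q).comap q) := Set.finite_univ_iff.1
      (((k1.inv.image QuotientGroup.continuous_mk).finite_of_discrete).subset fun g _ => by
        obtain ⟨g, rfl⟩ := QuotientGroup.mk_surjective g
        obtain ⟨x, a, z, b, e⟩ := H.ok.exists_Gp g⁻¹
        obtain ⟨s, c, y, d, rfl⟩ := k3 z b
        refine ⟨y⁻¹, by simpa using d, QuotientGroup.eq.2 ⟨1, one_mem _, ?_⟩⟩
        rw [inv_eq_iff_eq_inv.1 e]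
        simp [h1 s c, show q x = 1 by simp [q, p1 x a]])
    exact Subgroup.finiteIndex_of_finite_quotient
  have h4 := fin_solv hT (q.comp f) (C.map q)
    (solvable_of_surjective (q.subgroupMap_surjective C)) ⟨by
      rw [← Subgroup.comap_comap, Subgroup.index_comap]
      exact Subgroup.FiniteIndex.index_ne_zero⟩
  have h5 := fin_solv hT (p.comp f) (Subgroup.center _) (isSolvable_of_comm fun a b => Subtype.ext (Subgroup.mem_center_iff.1 b.2 a))
    (by rwa [← QuotientGroup.ker_mk' (Subgroup.center _), MonoidHom.comap_ker])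
  rwa [← MonoidHom.comap_ker, QuotientGroup.ker_mk'] at h5

open Vale.Agent.P092AG in
/-- **The literal case**: the fields `closed` and `quo` of `LS`. -/
theorem closed_quo {n : ℕ} {G : Subgroup (GL (Fin n) k)} {𝔤 : Submodule k (Mt n k)} {L : LD k G}
    (hN : Nice G 𝔤) (hS : Simp G) (H : L.LP) (hr : 0 < L.R.r) : IsClosed (L.Gp : Set G) ∧
      ∀ (Γ : Type) [Group Γ], HasT Γ → ∀ f : Γ →* G, (L.Gp.comap f).FiniteIndex := by
  have := H.prop
  have := H.top
  have h1 : LN G (L.Gp.map G.subtype) := Eventually.of_forall fun g a _ ⟨x, b, e⟩ =>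
    ⟨_, H.ok.normal_Gp.conj_mem x b ⟨g, a⟩, e ▸ rfl⟩
  have h2 : (L.Gp.map G.subtype : Set (GL (Fin n) k)).Infinite := by
    obtain ⟨j, -⟩ := H.ok.dg_simple ⟨0, hr⟩
    exact Set.infinite_of_injective_forall_mem (f := fun t : k => (L.x (Pi.single j t)).1)
      (fun t t' e => Pi.single_injective j (H.ok.x_inj (Subtype.ext e)))
      fun t => ⟨_, Up_le_Gp (H.ok.x_mem _), rfl⟩
  obtain ⟨p, hp⟩ := CharP.exists k
  rcases CharP.char_is_prime_or_zero k p with e | rfl
  · have := Fact.mk e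
    obtain ⟨C, c1, -, c2, c3⟩ := cp p hN hS (Subgroup.map_subtype_le _) h1 h2
    refine ⟨closed_p H p, quo_of H (C := C.subgroupOf G)
      (solvable_of_surjective (f := (Subgroup.subgroupOfEquivOfLe c1).symm.toMonoidHom)
        (MulEquiv.surjective _)) ((continuous_subtype_val.tendsto 1).eventually c3 |>.mono ?_)⟩
    intro g a
    obtain ⟨_, ⟨x, b, rfl⟩, c, d, e⟩ := a g.2
    exact ⟨x, b, ⟨c, c1 d⟩, d, Subtype.ext e⟩
  · have := CharP.charP_to_charZero k
    have h3 : ∀ᶠ g in 𝓝 (1 : G), g ∈ L.Gp := ((continuous_subtype_val.tendsto 1).eventually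
      (P092A2.c0' hN hS (Subgroup.map_subtype_le _) h1 h2)).mono fun g a =>
        let ⟨x, b, e⟩ := a g.2
        (Subtype.ext e : x = g) ▸ b
    exact ⟨Subgroup.isClosed_of_isOpen _ (Subgroup.isOpen_of_mem_nhds _ h3),
      quo_of H (C := ⊥) inferInstance (h3.mono fun g a => ⟨g, a, 1, one_mem _, (mul_one g).symm⟩)⟩

end Vale.Agent.P092CQ
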